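import Vale.Agent.P259.Spec
import Vale.Agent.P259.Top.Cells

/-!
# P259, Pi: discs, the cylinder over a disc, fillings in weakly contractible spaces
-/

namespace Vale.Agent.P259

open Set Filter
open scoped Topology unitInterval
open Topology

noncomputable section

namespace Ball

variable {n : ℕ}

theorem abs_le_one (v : Ball n) (k : Fin n) : |v.1 k| ≤ 1 :=
  abs_le_one_iff_mul_self_le_one.2 (by
    have h := Finset.single_le_sum (f := fun j => v.1 j ^ 2) (fun j _ => sq_nonneg _)
      (Finset.mem_univ k)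
    nlinarith [v.2, h])

instance compactSpace : CompactSpace (Ball n) := (ballDisc n).symm.compactSpace

instance : Subsingleton (Ball 0) := ⟨fun _ _ => Subtype.ext (funext fun i => i.elim0)⟩

/-- The point of the disc of dimension zero. -/
def pt : Ball 0 := ⟨Fin.elim0, by simp⟩

theorem rim_zero : rim 0 = ∅ := by
  ext v
  simp [rim]

theorem isClosed_rim (n : ℕ) : IsClosed (rim n) :=
  isClosed_eq (continuous_finsetSum _ fun k _ =>
    ((continuous_apply k).comp continuous_subtype_val).pow 2) continuous_const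

instance compactSpace_rim : CompactSpace (rim n) :=
  isCompact_iff_compactSpace.1 (isClosed_rim n).isCompact

theorem mem_rim_iff (v : Ball n) : v ∈ rim n ↔ ballDisc n v ∈ P259.Top.rim n := by
  show ∑ k, v.1 k ^ 2 = 1 ↔ ‖(WithLp.toLp 2 v.1 : EuclideanSpace ℝ (Fin n))‖ = 1
  have h : ‖(WithLp.toLp 2 v.1 : EuclideanSpace ℝ (Fin n))‖ ^ 2 = ∑ k, v.1 k ^ 2 := by
    simp [EuclideanSpace.norm_sq_eq]
  rw [← h]
  constructor
  · intro h'
    nlinarith [norm_nonneg (WithLp.toLp 2 v.1 : EuclideanSpace ℝ (Fin n))]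
  · intro h'
    rw [h', one_pow]

theorem hemi_eq (e : Bool) (v : Ball n) :
    hemi e n v = (ballDisc (n + 1)).symm (discSide e n (ballDisc n v)) :=
  Subtype.ext (hemisphere_discSide e v)

theorem hemi_mem_rim (e : Bool) (v : Ball n) : hemi e n v ∈ rim (n + 1) := hemisphere_sum e v

theorem exists_hemi {w : Ball (n + 1)} (hw : w ∈ rim (n + 1)) : ∃ e v, hemi e n v = w := by
  obtain ⟨e, he⟩ := exists_discSide ((mem_rim_iff w).1 hw)
  refine ⟨e, (ballDisc n).symm (P259.Top.shadow (ballDisc (n + 1) w)), ?_⟩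
  rw [hemi_eq, Homeomorph.apply_symm_apply, he, Homeomorph.symm_apply_apply]

theorem hemi_eq_of_rim (e e' : Bool) {v : Ball n} (hv : v ∈ rim n) : hemi e n v = hemi e' n v := by
  have hv' : ∑ k, v.1 k ^ 2 = 1 := hv
  refine Subtype.ext ?_
  show hemisphere e v = hemisphere e' v
  simp [hemisphere, hv']

theorem hemi_inj {e e' : Bool} {v v' : Ball n} (h : hemi e n v = hemi e' n v') :
    v = v' ∧ (e = e' ∨ v ∈ rim n) := by
  have h1 : hemisphere e v = hemisphere e' v' := congrArg Subtype.val h
  have hv : v = v' := Subtype.ext (funext fun k => by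
    simpa [hemisphere] using congrFun h1 k.castSucc)
  subst hv
  refine ⟨rfl, ?_⟩
  by_cases hr : v ∈ rim n
  · exact Or.inr hr
  · refine Or.inl ?_
    have h2 := congrFun h1 (Fin.last n)
    simp only [hemisphere, Fin.snoc_last] at h2
    have hne : Real.sqrt (1 - ∑ k, v.1 k ^ 2) ≠ 0 := by
      rw [Real.sqrt_ne_zero']
      exact sub_pos.2 (lt_of_le_of_ne v.2 hr)
    have h3 := mul_right_cancel₀ hne h2
    cases e <;> cases e' <;> first | rfl | norm_num at h3

/-! ### The cylinder -/

/-- The cylinder coordinates. -/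
def cylVec (p : Ball n × I) : Fin (n + 1) → ℝ := Fin.snoc p.1.1 (2 * (p.2 : ℝ) - 1)

/-- The norm whose unit ball is the cylinder. -/
def boxNorm (u : Fin (n + 1) → ℝ) : ℝ :=
  max (Real.sqrt (∑ k : Fin n, u k.castSucc ^ 2)) |u (Fin.last n)|

/-- The Euclidean norm. -/
def eucNorm (u : Fin (n + 1) → ℝ) : ℝ := Real.sqrt (∑ k, u k ^ 2)

theorem boxNorm_nonneg (u : Fin (n + 1) → ℝ) : 0 ≤ boxNorm u :=
  le_max_of_le_left (Real.sqrt_nonneg _)

theorem eucNorm_nonneg (u : Fin (n + 1) → ℝ) : 0 ≤ eucNorm u := Real.sqrt_nonneg _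

theorem eucNorm_eq_zero {u : Fin (n + 1) → ℝ} : eucNorm u = 0 ↔ u = 0 := by
  rw [eucNorm, Real.sqrt_eq_zero (Finset.sum_nonneg fun k _ => sq_nonneg _),
    Finset.sum_eq_zero_iff_of_nonneg fun k _ => sq_nonneg _]
  simp [funext_iff]

theorem abs_le_eucNorm (u : Fin (n + 1) → ℝ) (k : Fin (n + 1)) : |u k| ≤ eucNorm u := by
  rw [← Real.sqrt_sq_eq_abs]
  exact Real.sqrt_le_sqrt (Finset.single_le_sum (f := fun j => u j ^ 2)
    (fun j _ => sq_nonneg _) (Finset.mem_univ k))

theorem boxNorm_smul {c : ℝ} (hc : 0 ≤ c) (u : Fin (n + 1) → ℝ) :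
    boxNorm (c • u) = c * boxNorm u := by
  simp only [boxNorm, Pi.smul_apply, smul_eq_mul, mul_pow, ← Finset.mul_sum,
    Real.sqrt_mul (sq_nonneg c), Real.sqrt_sq hc, abs_mul, abs_of_nonneg hc,
    mul_max_of_nonneg _ _ hc]

theorem eucNorm_smul {c : ℝ} (hc : 0 ≤ c) (u : Fin (n + 1) → ℝ) :
    eucNorm (c • u) = c * eucNorm u := by
  simp only [eucNorm, Pi.smul_apply, smul_eq_mul, mul_pow, ← Finset.mul_sum,
    Real.sqrt_mul (sq_nonneg c), Real.sqrt_sq hc]

theorem boxNorm_eq_zero {u : Fin (n + 1) → ℝ} (h : boxNorm u = 0) : u = 0 := by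
  have h1 : |u (Fin.last n)| = 0 :=
    le_antisymm ((le_max_right _ _).trans h.le) (abs_nonneg _)
  have h2 : Real.sqrt (∑ k : Fin n, u k.castSucc ^ 2) = 0 :=
    le_antisymm ((le_max_left _ _).trans h.le) (Real.sqrt_nonneg _)
  rw [Real.sqrt_eq_zero (Finset.sum_nonneg fun k _ => sq_nonneg _),
    Finset.sum_eq_zero_iff_of_nonneg fun k _ => sq_nonneg _] at h2
  funext i
  induction i using Fin.lastCases with
  | last => simpa using h1
  | cast j => simpa using h2 j (Finset.mem_univ j)

theorem boxNorm_cylVec (p : Ball n × I) :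
    boxNorm (cylVec p) = max (Real.sqrt (∑ k, p.1.1 k ^ 2)) |2 * (p.2 : ℝ) - 1| := by
  simp [boxNorm, cylVec]

theorem boxNorm_cylVec_le (p : Ball n × I) : boxNorm (cylVec p) ≤ 1 := by
  rw [boxNorm_cylVec]
  refine max_le (Real.sqrt_le_one.2 p.1.2) (abs_le.2 ⟨?_, ?_⟩) <;> linarith [p.2.2.1, p.2.2.2]

/-- The radial map from the box to the disc. -/
def squash (u : Fin (n + 1) → ℝ) : Fin (n + 1) → ℝ := (boxNorm u / eucNorm u) • u

theorem eucNorm_squash (u : Fin (n + 1) → ℝ) : eucNorm (squash u) = boxNorm u := by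
  rw [squash, eucNorm_smul (div_nonneg (boxNorm_nonneg u) (eucNorm_nonneg _))]
  by_cases h : u = 0
  · subst h
    simp [boxNorm, eucNorm]
  · exact div_mul_cancel₀ _ fun h0 => h (eucNorm_eq_zero.1 h0)

theorem sum_sq_squash (u : Fin (n + 1) → ℝ) : ∑ k, squash u k ^ 2 = boxNorm u ^ 2 := by
  rw [← eucNorm_squash u, eucNorm, Real.sq_sqrt (Finset.sum_nonneg fun k _ => sq_nonneg _)]

theorem continuous_boxNorm : Continuous (boxNorm (n := n)) := by
  unfold boxNorm
  fun_prop

theorem continuous_eucNorm : Continuous (eucNorm (n := n)) := by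
  unfold eucNorm
  fun_prop

theorem continuous_squash : Continuous (squash (n := n)) := by
  refine continuous_iff_continuousAt.2 fun u => ?_
  by_cases h : u = 0
  · subst h
    have h0 : squash (0 : Fin (n + 1) → ℝ) = 0 := by simp [squash]
    refine tendsto_pi_nhds.2 fun k => ?_
    rw [h0]
    refine squeeze_zero_norm (fun v => ?_)
      (by simpa [boxNorm] using (continuous_boxNorm (n := n)).tendsto 0)
    exact (abs_le_eucNorm (squash v) k).trans_eq (eucNorm_squash v)
  · exact (continuous_boxNorm.continuousAt.div continuous_eucNorm.continuousAt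
      (fun h0 => h (eucNorm_eq_zero.1 h0))).smul continuousAt_id

theorem continuous_cylVec : Continuous (cylVec (n := n)) := by
  refine continuous_pi fun i => ?_
  induction i using Fin.lastCases with
  | last => simp only [cylVec, Fin.snoc_last]; fun_prop
  | cast j =>
    simp only [cylVec, Fin.snoc_castSucc]
    exact (continuous_apply j).comp (continuous_subtype_val.comp continuous_fst)

/-- The cylinder over a disc is a disc. -/
def cyl (p : Ball n × I) : Ball (n + 1) :=
  ⟨squash (cylVec p), by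
    rw [sum_sq_squash]
    nlinarith [boxNorm_cylVec_le p, boxNorm_nonneg (cylVec p)]⟩

theorem cyl_bijective : Function.Bijective (cyl (n := n)) := by
  constructor
  · intro p q h
    have h' : squash (cylVec p) = squash (cylVec q) := congrArg Subtype.val h
    have hb : boxNorm (cylVec p) = boxNorm (cylVec q) := by
      rw [← eucNorm_squash, h', eucNorm_squash]
    have hv : cylVec p = cylVec q := by
      by_cases h0 : boxNorm (cylVec p) = 0
      · exact (boxNorm_eq_zero h0).trans (boxNorm_eq_zero (hb.symm.trans h0)).symm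
      · have hp : 0 < boxNorm (cylVec p) := lt_of_le_of_ne (boxNorm_nonneg _) (Ne.symm h0)
        have hne : ∀ u : Fin (n + 1) → ℝ, boxNorm u ≠ 0 → eucNorm u ≠ 0 := fun u hu he => by
          rw [eucNorm_eq_zero.1 he] at hu
          simp [boxNorm] at hu
        have hep := hne _ h0
        have heq := hne _ (hb ▸ h0)
        unfold squash at h'
        rw [← hb] at h'
        have hc := congrArg (fun u => (eucNorm (cylVec p) / boxNorm (cylVec p)) • u) h'
        simp only [smul_smul] at hc
        rw [show eucNorm (cylVec p) / boxNorm (cylVec p) *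
            (boxNorm (cylVec p) / eucNorm (cylVec p)) = 1 from by field_simp, one_smul,
          show eucNorm (cylVec p) / boxNorm (cylVec p) *
            (boxNorm (cylVec p) / eucNorm (cylVec q)) =
              eucNorm (cylVec p) / eucNorm (cylVec q) from by field_simp] at hc
        have hc' := congrArg boxNorm hc
        rw [boxNorm_smul (div_nonneg (eucNorm_nonneg _) (eucNorm_nonneg _)), ← hb] at hc'
        have h1 : eucNorm (cylVec p) / eucNorm (cylVec q) = 1 :=
          mul_right_cancel₀ h0 (hc'.symm.trans (one_mul _).symm)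
        rwa [h1, one_smul] at hc
    refine Prod.ext (Subtype.ext (funext fun k => ?_)) (Subtype.ext ?_)
    · simpa [cylVec] using congrFun hv k.castSucc
    · have := congrFun hv (Fin.last n)
      simp only [cylVec, Fin.snoc_last] at this
      linarith
  · intro w
    let u : Fin (n + 1) → ℝ := (eucNorm w.1 / boxNorm w.1) • w.1
    have hu : boxNorm u ≤ 1 := by
      rw [boxNorm_smul (div_nonneg (eucNorm_nonneg _) (boxNorm_nonneg _))]
      by_cases h : boxNorm w.1 = 0
      · simp [h]
      · rw [div_mul_cancel₀ _ h]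
        exact Real.sqrt_le_one.2 w.2
    have h1 : ∑ k : Fin n, u k.castSucc ^ 2 ≤ 1 :=
      Real.sqrt_le_one.1 ((le_max_left _ _).trans hu)
    have h2 := abs_le.1 ((le_max_right _ _).trans hu)
    let p : Ball n × I := (⟨fun k => u k.castSucc, h1⟩,
      ⟨(u (Fin.last n) + 1) / 2, by linarith [h2.1], by linarith [h2.2]⟩)
    have hp : cylVec p = u := by
      funext i
      induction i using Fin.lastCases with
      | last => simp [cylVec, p]; ring
      | cast j => simp [cylVec, p]
    refine ⟨p, Subtype.ext ?_⟩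
    show squash (cylVec p) = w.1
    rw [hp]
    by_cases h : boxNorm w.1 = 0
    · simp [u, boxNorm_eq_zero h, squash]
    · have he : eucNorm w.1 ≠ 0 := fun he => h (by simp [eucNorm_eq_zero.1 he, boxNorm])
      rw [squash, boxNorm_smul (div_nonneg (eucNorm_nonneg _) (boxNorm_nonneg _)),
        eucNorm_smul (div_nonneg (eucNorm_nonneg _) (boxNorm_nonneg _)), smul_smul]
      have hb : 0 < boxNorm w.1 := lt_of_le_of_ne (boxNorm_nonneg _) (Ne.symm h)
      convert one_smul ℝ w.1
      field_simp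

/-- The homeomorphism from the cylinder to the disc. -/
def cylHomeo (n : ℕ) : Ball n × I ≃ₜ Ball (n + 1) :=
  (show Continuous (cyl (n := n)) from
    (continuous_squash.comp continuous_cylVec).subtype_mk _).homeoOfEquivCompactToT2
      (f := Equiv.ofBijective cyl cyl_bijective)

theorem cylHomeo_mem_rim {p : Ball n × I} :
    cylHomeo n p ∈ rim (n + 1) ↔ p.1 ∈ rim n ∨ p.2 = 0 ∨ p.2 = 1 := by
  show ∑ k, squash (cylVec p) k ^ 2 = 1 ↔ _
  rw [sum_sq_squash, sq_eq_one_iff, or_iff_left (by linarith [boxNorm_nonneg (cylVec p)]),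
    boxNorm_cylVec]
  have h1 : Real.sqrt (∑ k, p.1.1 k ^ 2) = 1 ↔ p.1 ∈ rim n := Real.sqrt_eq_one
  have h2 : |2 * (p.2 : ℝ) - 1| = 1 ↔ p.2 = 0 ∨ p.2 = 1 := by
    rw [abs_eq zero_le_one]
    constructor
    · rintro (h | h)
      · exact Or.inr (Subtype.ext (show (p.2 : ℝ) = 1 by linarith))
      · exact Or.inl (Subtype.ext (show (p.2 : ℝ) = 0 by linarith))
    · rintro (h | h) <;> simp [h]; norm_num
  have h3 : Real.sqrt (∑ k, p.1.1 k ^ 2) ≤ 1 := Real.sqrt_le_one.2 p.1.2
  have h4 : |2 * (p.2 : ℝ) - 1| ≤ 1 := abs_le.2 ⟨by linarith [p.2.2.1], by linarith [p.2.2.2]⟩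
  rw [← h1, ← h2]
  constructor
  · intro h
    rcases max_choice (Real.sqrt (∑ k, p.1.1 k ^ 2)) |2 * (p.2 : ℝ) - 1| with hc | hc <;>
      rw [hc] at h
    · exact Or.inl h
    · exact Or.inr h
  · rintro (h | h)
    · exact le_antisymm (max_le h3 h4) (h.symm.trans_le (le_max_left _ _))
    · exact le_antisymm (max_le h3 h4) (h.symm.trans_le (le_max_right _ _))

/-! ### Gluing and filling -/

/-- Maps on the two hemispheres agreeing on their common rim glue to the sphere. -/
theorem exists_glue {K : Type} [TopologicalSpace K] [CompactSpace K] [T2Space K] {Y : Type}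
    [TopologicalSpace Y] (f : Bool → C(Ball n × K, Y))
    (h : ∀ v ∈ rim n, ∀ k, f false (v, k) = f true (v, k)) :
    ∃ c : C(rim (n + 1) × K, Y), ∀ e v k, c (⟨hemi e n v, hemi_mem_rim e v⟩, k) = f e (v, k) := by
  let q : C((Ball n × K) ⊕ (Ball n × K), rim (n + 1) × K) :=
    ⟨Sum.elim (fun p => (⟨hemi false n p.1, hemi_mem_rim false p.1⟩, p.2))
      (fun p => (⟨hemi true n p.1, hemi_mem_rim true p.1⟩, p.2)),
      ((((hemi false n).continuous.comp continuous_fst).subtype_mk _).prodMk continuous_snd).sumElim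
        ((((hemi true n).continuous.comp continuous_fst).subtype_mk _).prodMk continuous_snd)⟩
  have hsurj : Function.Surjective q := by
    rintro ⟨⟨w, hw⟩, k⟩
    obtain ⟨e, v, rfl⟩ := exists_hemi hw
    cases e
    · exact ⟨Sum.inl (v, k), rfl⟩
    · exact ⟨Sum.inr (v, k), rfl⟩
  have hq : IsQuotientMap q := IsQuotientMap.of_surjective_continuous hsurj q.continuous
  let ab : C((Ball n × K) ⊕ (Ball n × K), Y) :=
    ⟨Sum.elim (f false) (f true), (f false).continuous.sumElim (f true).continuous⟩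
  have hfac : Function.FactorsThrough ab q := by
    rintro (⟨v, k⟩ | ⟨v, k⟩) (⟨v', k'⟩ | ⟨v', k'⟩) hxy <;>
      obtain ⟨hv, rfl⟩ := Prod.ext_iff.1 hxy <;>
      obtain ⟨rfl, hr⟩ := hemi_inj (congrArg Subtype.val hv)
    · rfl
    · exact h v (hr.resolve_left (by simp)) k
    · exact (h v (hr.resolve_left (by simp)) k).symm
    · rfl
  refine ⟨hq.lift ab hfac, fun e v k => ?_⟩
  cases e
  · exact DFunLike.congr_fun (hq.lift_comp ab hfac) (Sum.inl (v, k))
  · exact DFunLike.congr_fun (hq.lift_comp ab hfac) (Sum.inr (v, k))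

end Ball

/-- A weakly contractible space has a point. -/
theorem WC.nonempty {Z : Type} [TopologicalSpace Z] (hZ : WC Z) : Nonempty Z := by
  have h : IsEmpty (rim 0) := ⟨fun v => by simpa [Ball.rim_zero] using v.2⟩
  obtain ⟨F, -⟩ := hZ 0 ⟨fun v => h.elim v, continuous_of_discreteTopology⟩
  exact ⟨F Ball.pt⟩

/-- Two maps of a disc into a weakly contractible space with a homotopy on the sphere are
homotopic by a homotopy extending it. -/
theorem WC.exists_homotopy {Z : Type} [TopologicalSpace Z] (hZ : WC Z) {n : ℕ}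
    (f₀ f₁ : C(Ball n, Z)) (g : C(rim n × I, Z)) (h₀ : ∀ v : rim n, g (v, 0) = f₀ v.1)
    (h₁ : ∀ v : rim n, g (v, 1) = f₁ v.1) :
    ∃ H : C(Ball n × I, Z), (∀ v, H (v, 0) = f₀ v) ∧ (∀ v, H (v, 1) = f₁ v) ∧
      ∀ (v : rim n) t, H (v.1, t) = g (v, t) := by
  classical
  let G : Ball n × I → Z := fun p =>
    if p.2 = 0 then f₀ p.1 else if p.2 = 1 then f₁ p.1
    else if hp : p.1 ∈ rim n then g (⟨p.1, hp⟩, p.2) else f₀ p.1
  have hGA : ∀ (v : rim n) t, G (v.1, t) = g (v, t) := by
    intro v t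
    by_cases ht : t = 0
    · subst ht
      simp only [G, if_pos, h₀ v]
    · by_cases ht1 : t = 1
      · subst ht1
        simp [G, h₁ v]
      · simp [G, ht, ht1, v.2]
  let C₀ : Set (Ball n × I) := {p | p.2 = 0}
  let C₁ : Set (Ball n × I) := {p | p.2 = 1}
  let C₂ : Set (Ball n × I) := {p | p.1 ∈ rim n}
  have hC₀ : IsClosed C₀ := isClosed_eq continuous_snd continuous_const
  have hC₁ : IsClosed C₁ := isClosed_eq continuous_snd continuous_const
  have hC₂ : IsClosed C₂ := (Ball.isClosed_rim n).preimage continuous_fst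
  have hcont : ContinuousOn G (C₀ ∪ C₁ ∪ C₂) := by
    refine (ContinuousOn.union_of_isClosed ?_ ?_ hC₀ hC₁).union_of_isClosed ?_
      (hC₀.union hC₁) hC₂
    · exact (f₀.continuous.comp continuous_fst).continuousOn.congr fun p hp => by
        simp [G, show p.2 = 0 from hp]
    · exact (f₁.continuous.comp continuous_fst).continuousOn.congr fun p hp => by
        simp [G, show p.2 = 1 from hp]
    · rw [continuousOn_iff_continuous_domRestrict]
      have : C₂.domRestrict G = fun p => g (⟨p.1.1, p.2⟩, p.1.2) :=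
        funext fun p => hGA ⟨p.1.1, p.2⟩ p.1.2
      rw [this]
      exact g.continuous.comp (((continuous_fst.comp continuous_subtype_val).subtype_mk _).prodMk
        (continuous_snd.comp continuous_subtype_val))
  have hmem : ∀ w : rim (n + 1), (Ball.cylHomeo n).symm w.1 ∈ C₀ ∪ C₁ ∪ C₂ := by
    intro w
    have := w.2
    rw [← (Ball.cylHomeo n).apply_symm_apply w.1, Ball.cylHomeo_mem_rim] at this
    rcases this with h | h | h
    · exact Or.inr h
    · exact Or.inl (Or.inl h)
    · exact Or.inl (Or.inr h)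
  obtain ⟨F, hF⟩ := hZ (n + 1) ⟨fun w => G ((Ball.cylHomeo n).symm w.1),
    hcont.comp_continuous ((Ball.cylHomeo n).symm.continuous.comp continuous_subtype_val) hmem⟩
  have hFG : ∀ p, p.1 ∈ rim n ∨ p.2 = 0 ∨ p.2 = 1 → F (Ball.cylHomeo n p) = G p := by
    intro p hp
    refine (hF ⟨_, Ball.cylHomeo_mem_rim.2 hp⟩).trans ?_
    show G ((Ball.cylHomeo n).symm (Ball.cylHomeo n p)) = G p
    rw [Homeomorph.symm_apply_apply]
  refine ⟨F.comp (Ball.cylHomeo n : C(Ball n × I, Ball (n + 1))), fun v => ?_, fun v => ?_,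
    fun v t => ?_⟩
  · exact (hFG (v, 0) (Or.inr (Or.inl rfl))).trans (by simp [G])
  · exact (hFG (v, 1) (Or.inr (Or.inr rfl))).trans (by simp [G])
  · exact (hFG (v.1, t) (Or.inl v.2)).trans (hGA v t)

/-- Two points of a weakly contractible space are joined. -/
theorem WC.joined {Z : Type} [TopologicalSpace Z] (hZ : WC Z) (x y : Z) : Joined x y := by
  have h : IsEmpty (rim 0) := ⟨fun v => by simpa [Ball.rim_zero] using v.2⟩
  obtain ⟨H, h0, h1, -⟩ := hZ.exists_homotopy (ContinuousMap.const (Ball 0) x)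
    (ContinuousMap.const (Ball 0) y) ⟨fun v => h.elim v.1, continuous_of_discreteTopology⟩
    (fun v => h.elim v) (fun v => h.elim v)
  exact ⟨⟨⟨fun t => H (Ball.pt, t), H.continuous.comp (continuous_const.prodMk continuous_id)⟩,
    h0 _, h1 _⟩⟩

end

end Vale.Agent.P259
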