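import Vale.Agent.P259.Pi.Ball
import Vale.Agent.P259.Model.Linked

/-!
# P259, Pi: maps of discs into the realisations of representables, maps given by cells
-/

namespace Vale.Agent.P259

open CategoryTheory Opposite
open scoped Topology unitInterval

noncomputable section

namespace Pi

variable {E : Ext} (B : SimpBase E)

theorem ofValue_act (X : E.Gpd) {S T : Table} (g : E.M S T) (x : E.at X.obj T) :
    E.ofValue X (E.act X.obj g x) = E.yonMap g ≫ E.ofValue X x := by
  refine ObjectProperty.hom_ext _ (NatTrans.ext (funext fun o => ?_))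
  refine ConcreteCategory.hom_ext _ _ fun h => ?_
  exact (ConcreteCategory.congr_hom
    ((congrArg X.obj.map op_comp).trans (X.obj.map_comp g.op h.op)) x).symm

theorem ofValue_app_cell {X Y : E.Gpd} (f : X ⟶ Y) {T : Table} (x : E.at X.obj T) :
    E.ofValue Y (f.hom.app _ x) = E.ofValue X x ≫ f := by
  refine ObjectProperty.hom_ext _ (NatTrans.ext (funext fun o => ?_))
  refine ConcreteCategory.hom_ext _ _ fun h => ?_
  exact (ConcreteCategory.congr_hom (f.hom.naturality h.op) x).symm

theorem yonMap_comp {R S T : Table} (f : E.M R S) (g : E.M S T) :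
    E.yonMap (f ≫ g) = E.yonMap f ≫ E.yonMap g :=
  ObjectProperty.hom_ext _ (yoneda.map_comp f g)

theorem ofValue_id (T : Table) : E.ofValue (E.yon T) (𝟙 (E.i.obj T)) = 𝟙 (E.yon T) := by
  refine ObjectProperty.hom_ext _ (NatTrans.ext (funext fun o => ?_))
  refine ConcreteCategory.hom_ext _ _ fun h => ?_
  exact Category.comp_id h

theorem ofValue_yon {S T : Table} (g : E.M S T) : E.ofValue (E.yon T) g = E.yonMap g := by
  refine ObjectProperty.hom_ext _ (NatTrans.ext (funext fun o => ?_))
  exact ConcreteCategory.hom_ext _ _ fun h => rfl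

/-- The realisation of a representable. -/
abbrev space (T : Table) : Type := (B.sys (E.yon T)).Space

/-- The map of realisations of a map of globular sums. -/
abbrev rmap {S T : Table} (g : E.M S T) : C(space B S, space B T) := B.real (E.yonMap g)

theorem rmap_comp {R S T : Table} (f : E.M R S) (g : E.M S T) :
    rmap B (f ≫ g) = (rmap B g).comp (rmap B f) := by
  rw [rmap, yonMap_comp, B.real_comp]

theorem rmap_face_face (e e' e'' : Bool) (n : ℕ) (x : space B (disc n)) :
    rmap B (E.face e' (n + 1)) (rmap B (E.face e n) x) =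
      rmap B (E.face e'' (n + 1)) (rmap B (E.face e n) x) := by
  rw [← ContinuousMap.comp_apply, ← rmap_comp, E.face_face e e' e'' n, rmap_comp]
  rfl

/-- A map of a disc whose two images in the next representable agree on the sphere. -/
abbrev Stage (n : ℕ) : Type :=
  {f : C(Ball n, space B (disc n)) //
    ∀ v ∈ rim n, rmap B (E.face false n) (f v) = rmap B (E.face true n) (f v)}

theorem exists_next (hB : ∀ T, WC (space B T)) (n : ℕ) (f : Stage B n) :
    ∃ g : Stage B (n + 1), ∀ e, g.1.comp (hemi e n) = (rmap B (E.face e n)).comp f.1 := by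
  obtain ⟨c, hc⟩ := Ball.exists_glue (K := Unit)
    (fun e => ⟨fun p => rmap B (E.face e n) (f.1 p.1),
      (rmap B (E.face e n)).continuous.comp (f.1.continuous.comp continuous_fst)⟩)
    (fun v hv _ => f.2 v hv)
  obtain ⟨F, hF⟩ := hB (disc (n + 1)) (n + 1)
    (c.comp ⟨fun w => (w, ()), continuous_id.prodMk continuous_const⟩)
  have hh : ∀ e v, F (hemi e n v) = rmap B (E.face e n) (f.1 v) := fun e v =>
    (hF ⟨_, Ball.hemi_mem_rim e v⟩).trans (hc e v ())
  refine ⟨⟨F, fun v hv => ?_⟩, fun e => ContinuousMap.ext fun v => hh e v⟩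
  obtain ⟨e, u, rfl⟩ := Ball.exists_hemi hv
  rw [hh, rmap_face_face B e false true]

theorem exists_iota (hB : ∀ T, WC (space B T)) : Nonempty (Iota B) := by
  obtain ⟨p⟩ := (hB (disc 0)).nonempty
  let f : ∀ n, Stage B n := fun n => Nat.rec
    ⟨ContinuousMap.const _ p, fun v hv => absurd hv (by simp [Ball.rim_zero])⟩
    (fun m g => (exists_next B hB m g).choose) n
  exact ⟨{ ι := fun n => (f n).1
           nat := fun e n => (exists_next B hB n (f n)).choose_spec e }⟩

theorem space_wc (hW : Spec.RealWC) (hF : Spec.SysFills) {C : Coherator} (S : Simplices C.C)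
    (T : Table) : WC (space S.toSimpBase T) :=
  hW _ (hF C S _ (yonCtr C.C C.C_contractible T))

/-- Maps of discs natural in the sides exist. -/
theorem iotaExists (hW : Spec.RealWC) (hF : Spec.SysFills) : Spec.IotaExists := fun _ S =>
  exists_iota S.toSimpBase (space_wc hW hF S)

end Pi

namespace Iota

variable {E : Ext} {B : SimpBase E} (J : Iota B)

theorem theta_act (X : E.Gpd) {n : ℕ} {T : Table} (g : E.M (disc n) T) (x : E.at X.obj T) :
    J.theta X (E.act X.obj g x) = (B.real (E.ofValue X x)).comp ((Pi.rmap B g).comp (J.ι n)) := by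
  show (B.real _).comp (J.ι n) = _
  rw [Pi.ofValue_act, B.real_comp]
  rfl

theorem theta_app {X Y : E.Gpd} (f : X ⟶ Y) {n : ℕ} (a : E.cells X.obj n) :
    J.theta Y (E.appCell f.hom n a) = (B.real f).comp (J.theta X a) := by
  rw [Iota.theta, Ext.appCell, Pi.ofValue_app_cell, B.real_comp]
  rfl

theorem theta_hemi (X : E.Gpd) {n : ℕ} (a : E.cells X.obj (n + 1)) (e : Bool) :
    (J.theta X a).comp (hemi e n) = J.theta X (E.act X.obj (E.face e n) a) := by
  rw [J.theta_act, Iota.theta, ContinuousMap.comp_assoc, J.nat]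

theorem theta_yon {S : Table} {n : ℕ} (g : E.M (disc n) S) :
    J.theta (E.yon S) g = (Pi.rmap B g).comp (J.ι n) := by
  show (B.real (E.ofValue (E.yon S) g)).comp (J.ι n) = _
  rw [Pi.ofValue_yon]

/-- The map of the sphere given by two parallel cells. -/
theorem exists_bdry (Z : E.Gpd) {n : ℕ} (b : Bool → E.cells Z.obj n)
    (hb : E.Par Z.obj (b false) (b true)) :
    ∃ w : C(rim (n + 1), (B.sys Z).Space),
      ∀ e v, w ⟨hemi e n v, Ball.hemi_mem_rim e v⟩ = J.theta Z (b e) v := by
  obtain ⟨c, hc⟩ := Ball.exists_glue (K := Unit)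
    (fun e => ⟨fun p => J.theta Z (b e) p.1, (J.theta Z (b e)).continuous.comp continuous_fst⟩)
    (fun v hv _ => by
      show J.theta Z (b false) v = J.theta Z (b true) v
      cases n with
      | zero => exact absurd hv (by simp [Ball.rim_zero])
      | succ n =>
        obtain ⟨e, u, rfl⟩ := Ball.exists_hemi hv
        rw [← ContinuousMap.comp_apply, ← ContinuousMap.comp_apply, J.theta_hemi, J.theta_hemi,
          hb e])
  exact ⟨c.comp ⟨fun w => (w, ()), continuous_id.prodMk continuous_const⟩,
    fun e v => hc e v ()⟩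

end Iota

end

end Vale.Agent.P259
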