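import Vale.Agent.P259.Pi.Iota
import Vale.Agent.P259.Real.Vert

/-!
# P259, Pi: points and components of the realisation

Every point of the realisation is joined to a vertex, and every vertex to the point of a zero
dimensional cell; the class of the last point of a vertex is locally constant.
-/

namespace Vale.Agent.P259.Pi

open CategoryTheory Opposite
open P259.Complex
open scoped Topology unitInterval

noncomputable section

/-- The simplices of models are freely generated by their faces. -/
def simplexRep {E : Ext} (B : SimpBase E) (k : ℕ) : B.Rep (OCx.simplex k) where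
  G := B.F k
  fam := B.taut k
  univ X φ := by
    refine ⟨φ.app ⟨id, strictMono_id⟩, Fam.ext (funext fun j => funext fun v => ?_), fun g hg => ?_⟩
    · exact φ.nat ⟨id, strictMono_id⟩ ⟨v.1, (v.2 : StrictMono v.1).monotone⟩
        (v.2 : StrictMono v.1).injective
    · rw [← hg]
      show g = B.map (OrderHom.id : Op k k) ≫ g
      rw [B.map_id, Category.id_comp]

theorem simplex_isCone (k : ℕ) (j : Fin (k + 1)) : (OCx.simplex k).IsCone j := by
  intro l v
  classical
  let s : Finset (Fin (k + 1)) := insert j (Finset.univ.image v.1)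
  have hc : s.card = (s.card - 1) + 1 :=
    (Nat.succ_pred_eq_of_pos (Finset.card_pos.2 (Finset.insert_nonempty _ _))).symm
  refine ⟨_, ⟨s.orderEmbOfFin hc, (s.orderEmbOfFin hc).strictMono⟩, ?_⟩
  show Set.range (s.orderEmbOfFin hc) = _
  rw [Finset.range_orderEmbOfFin]
  simp only [s, Finset.coe_insert]
  exact congrArg (insert j) (Set.ext fun x =>
    ⟨fun hx => by
      obtain ⟨i, -, hi⟩ := Finset.mem_image.1 hx
      exact ⟨i, hi⟩,
    fun ⟨i, hi⟩ => Finset.mem_image.2 ⟨i, Finset.mem_univ _, hi⟩⟩)

theorem strictMono_fin_one {α : Type*} [Preorder α] (f : Fin (0 + 1) → α) : StrictMono f :=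
  fun a b h => absurd h (by rw [Fin.fin_one_eq_zero a, Fin.fin_one_eq_zero b]; exact lt_irrefl _)

/-- The simplices of models are contractible. -/
theorem ctr_F (hR : Spec.RepCtrCone) (C : Coherator) (S : Simplices C.C) (k : ℕ) :
    C.C.Ctr (S.F k).obj :=
  hR C S (OCx.simplex k) (0 : Fin (k + 1)) (inferInstanceAs (Finite (Fin (k + 1))))
    ⟨⟨fun _ => (0 : Fin (k + 1)), strictMono_fin_one _⟩, rfl⟩ (simplex_isCone k 0)
    (simplexRep S.toSimpBase k)

open scoped Classical in
theorem joined_of_union {V : Type} {K : Cx V} (x y : Real K)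
    (h : x.w.support ∪ y.w.support ∈ K.simp) : Joined x y := by
  let F : ContinuousMap.Homotopy (ContinuousMap.const Unit x) (ContinuousMap.const Unit y) :=
    Real.lineHomotopy _ _ (fun _ => h)
  have hF : Continuous fun t : I => F (t, ()) :=
    F.continuous.comp (Continuous.prodMk_left ())
  exact ⟨⟨⟨fun t => F (t, ()), hF⟩, F.apply_zero (), F.apply_one ()⟩⟩

section Class

variable {C : Coherator} (S : Simplices C.C) (X : C.C.Gpd)

/-- The last point of a vertex. -/
def pt (v : (S.toSimpBase.sys X).Vert) : C.C.cells X.obj 0 :=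
  C.C.appCell (S.map (OrderHom.const (Fin 1) (Fin.last v.k)) ≫ v.g).hom 0 (S.top 0)

variable {S X}

theorem pt_linked_of_le (hR : Spec.RepCtrCone) {u v : (S.toSimpBase.sys X).Vert} (h : u ≤ v) :
    C.C.Linked X.obj (pt S X u) (pt S X v) := by
  obtain ⟨δ, hδ, hg⟩ := h
  let a : C.C.cells (S.F v.k).obj 0 :=
    C.C.appCell (S.map (OrderHom.const (Fin 1) (Fin.last u.k)) ≫ S.map δ).hom 0 (S.top 0)
  let b : C.C.cells (S.F v.k).obj 0 :=
    C.C.appCell (S.map (OrderHom.const (Fin 1) (Fin.last v.k))).hom 0 (S.top 0)
  obtain ⟨L, h0, h1⟩ := (ctr_F hR C S v.k).linked a b trivial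
  refine ⟨C.C.appCell v.g.hom 1 L, ?_, ?_⟩
  · rw [Ext.appCell, C.C.act_natural, h0]
    show C.C.appCell v.g.hom 0 a = pt S X u
    have : u.g = S.map δ ≫ v.g := hg.symm
    unfold pt
    rw [this]
    rfl
  · rw [Ext.appCell, C.C.act_natural, h1]
    rfl

theorem pt_linked_of_mem (hR : Spec.RepCtrCone) (p : (S.toSimpBase.sys X).Space)
    {u v : (S.toSimpBase.sys X).Vert} (hu : u ∈ p.w.support) (hv : v ∈ p.w.support) :
    C.C.Linked X.obj (pt S X u) (pt S X v) := by
  by_cases huv : u = v
  · subst huv
    exact C.C.linked_refl C.C_contractible X.obj _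
  rcases p.mem hu hv huv with h | h
  · exact pt_linked_of_le hR h
  · exact C.C.linked_symm C.C_contractible X.obj (pt_linked_of_le hR h)

/-- The linking class of a point of the realisation. -/
def cls (p : (S.toSimpBase.sys X).Space) : Quot (C.C.Linked X.obj (n := 0)) :=
  Quot.mk _ (pt S X p.support_nonempty.choose)

theorem cls_eq (hR : Spec.RepCtrCone) (p : (S.toSimpBase.sys X).Space)
    {u : (S.toSimpBase.sys X).Vert} (hu : u ∈ p.w.support) : cls p = Quot.mk _ (pt S X u) :=
  Quot.sound (pt_linked_of_mem hR p p.support_nonempty.choose_spec hu)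

theorem cls_real (hR : Spec.RepCtrCone) {Y : C.C.Gpd} (f : Y ⟶ X)
    (p : (S.toSimpBase.sys Y).Space) :
    cls (S.toSimpBase.real f p) =
      Quot.mk _ (C.C.appCell f.hom 0 (pt S Y p.support_nonempty.choose)) := by
  have hm : (S.toSimpBase.sysMap f).vert p.support_nonempty.choose ∈
      (S.toSimpBase.real f p).w.support := by
    rw [Finsupp.mem_support_iff]
    intro h0
    have h1 : p.w p.support_nonempty.choose ≤ 0 := by
      classical
      refine le_of_le_of_eq ?_ h0
      show p.w _ ≤ (p.w.mapDomain _) ((S.toSimpBase.sysMap f).vert _)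
      rw [Finsupp.mapDomain, Finsupp.sum, Finsupp.finsetSum_apply]
      refine le_trans (le_of_eq (by rw [Finsupp.single_eq_same])) (Finset.single_le_sum
        (f := fun v => (Finsupp.single ((S.toSimpBase.sysMap f).vert v) (p.w v))
          ((S.toSimpBase.sysMap f).vert p.support_nonempty.choose)) (fun v _ => ?_)
        p.support_nonempty.choose_spec)
      rw [Finsupp.single_apply]
      split
      · exact p.nonneg v
      · exact le_rfl
    exact absurd h1 (not_le.2 (lt_of_le_of_ne (p.nonneg _)
      (Finsupp.mem_support_iff.1 p.support_nonempty.choose_spec).symm))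
  exact cls_eq hR _ hm

theorem continuous_cls (hR : Spec.RepCtrCone)
    [TopologicalSpace (Quot (C.C.Linked X.obj (n := 0)))] :
    Continuous (cls : (S.toSimpBase.sys X).Space → Quot (C.C.Linked X.obj (n := 0))) := by
  rw [Real.continuous_iff]
  intro s
  by_cases hs : s.1.Nonempty
  · have h : cls ∘ Real.ofSimplex s =
        fun _ => Quot.mk (C.C.Linked X.obj (n := 0)) (pt S X hs.choose) := funext fun f => by
      refine Quot.sound ?_
      have hm := Real.simplexWeight_support s.1 f
        (Real.ofSimplex (K := Cx.chains _) s f).support_nonempty.choose_spec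
      by_cases huv : (Real.ofSimplex (K := Cx.chains _) s f).support_nonempty.choose = hs.choose
      · rw [huv]
        exact C.C.linked_refl C.C_contractible X.obj _
      · rcases s.2 hm hs.choose_spec huv with h | h
        · exact pt_linked_of_le hR h
        · exact C.C.linked_symm C.C_contractible X.obj (pt_linked_of_le hR h)
    rw [h]
    exact continuous_const
  · have : IsEmpty (stdSimplex ℝ s.1) := ⟨fun f => by
      have h := f.2.2
      rw [Finset.sum_eq_zero fun i _ => absurd ⟨i.1, i.2⟩ hs] at h
      exact zero_ne_one h⟩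
    exact continuous_of_const fun f => isEmptyElim f

theorem cls_joined (hR : Spec.RepCtrCone) {p q : (S.toSimpBase.sys X).Space} (h : Joined p q) :
    cls p = cls q := by
  obtain ⟨γ⟩ := h
  let : TopologicalSpace (Quot (C.C.Linked X.obj (n := 0))) := ⊥
  have : DiscreteTopology (Quot (C.C.Linked X.obj (n := 0))) := ⟨rfl⟩
  have hc := PreconnectedSpace.constant inferInstance
    ((continuous_cls hR).comp γ.continuous) (x := (0 : I)) (y := 1)
  simpa using hc

end Class

variable {C : Coherator} {S : Simplices C.C}

theorem cls_theta (hR : Spec.RepCtrCone) (J : Iota S.toSimpBase) (X : C.C.Gpd)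
    (x : C.C.cells X.obj 0) (v : Ball 0) : cls (J.theta X x v) = Quot.mk _ x := by
  refine (cls_real hR (C.C.ofValue X x) (J.ι 0 v)).trans (Quot.sound ?_)
  obtain ⟨L, h0, h1⟩ := (yonCtr C.C C.C_contractible (disc 0)).linked
    (pt S (C.C.yon (disc 0)) (J.ι 0 v).support_nonempty.choose) (𝟙 (C.C.i.obj (disc 0))) trivial
  refine ⟨C.C.appCell (C.C.ofValue X x).hom 1 L, ?_, ?_⟩
  · rw [Ext.appCell, C.C.act_natural, h0]
  · rw [Ext.appCell, C.C.act_natural, h1]
    exact C.C.act_id X.obj x

/-- Points in one component come from linked points. -/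
theorem realPiZero (hR : Spec.RepCtrCone) : Spec.RealPiZero := by
  intro C S J X x x' h
  have he := cls_joined hR (h Ball.pt)
  rw [cls_theta hR, cls_theta hR] at he
  have hEq : Equivalence (C.C.Linked X.obj (n := 0)) :=
    ⟨fun a => C.C.linked_refl C.C_contractible X.obj a,
      fun h => C.C.linked_symm C.C_contractible X.obj h,
      fun h h' => C.C.linked_trans C.C_contractible X h h'⟩
  exact (hEq.eqvGen_iff).1 (Quot.eq.1 he)

/-- Every point is joined to the point of a cell. -/
theorem realPoints (hW : Spec.RealWC) (hF : Spec.SysFills) :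
    Spec.RealPoints := by
  intro C S J X y
  classical
  obtain ⟨u, hu⟩ := y.support_nonempty
  refine ⟨pt S X u, fun v => ?_⟩
  let u0 : (S.toSimpBase.sys X).Vert :=
    ⟨0, fun _ => u.maxLab, strictMono_fin_one _,
      S.map (OrderHom.const (Fin 1) (Fin.last u.k)) ≫ u.g⟩
  have h0 : u0 ≤ u := ⟨OrderHom.const (Fin 1) (Fin.last u.k), rfl, rfl⟩
  have hsing : ∀ w : (S.toSimpBase.sys X).Vert,
      ({w} : Finset _) ∈ (Cx.chains (S.toSimpBase.sys X).Vert).simp := fun w => by
    rw [Cx.mem_chains, Finset.coe_singleton]; exact IsChain.singleton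
  have e1 : Joined (Real.vertex u0 (hsing u0)) (Real.vertex u (hsing u)) :=
    joined_of_union _ _ (by
      refine (Cx.chains _).down (s := {u0, u}) ?_ ?_
      · rw [Cx.mem_chains, Finset.coe_pair]
        exact IsChain.pair h0
      · exact Finset.union_subset
          ((Finsupp.support_single_subset : (Finsupp.single u0 (1 : ℝ)).support ⊆ {u0}).trans
            (Finset.singleton_subset_iff.2 (Finset.mem_insert_self _ _)))
          ((Finsupp.support_single_subset : (Finsupp.single u (1 : ℝ)).support ⊆ {u}).trans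
            (Finset.singleton_subset_iff.2
              (Finset.mem_insert_of_mem (Finset.mem_singleton_self _)))))
  have e2 : Joined (Real.vertex u (hsing u)) y :=
    joined_of_union _ _ ((Cx.chains _).down (s := y.w.support) y.mem
      (Finset.union_subset
        ((Finsupp.support_single_subset : (Finsupp.single u (1 : ℝ)).support ⊆ {u}).trans
          (Finset.singleton_subset_iff.2 hu)) subset_rfl))
  obtain ⟨q, hq, -⟩ := S.zero_univ (C.C.yon (disc 0)) (𝟙 (C.C.i.obj (disc 0)))
  have hq' : q ≫ C.C.ofValue X (pt S X u) = u0.g := by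
    refine (S.zero_univ X (pt S X u)).unique ?_ rfl
    show (C.C.ofValue X (pt S X u)).hom.app _ (q.hom.app _ (S.top 0)) = _
    rw [show q.hom.app _ (S.top 0) = 𝟙 (C.C.i.obj (disc 0)) from hq]
    exact C.C.act_id X.obj _
  let q0 : (S.toSimpBase.sys (C.C.yon (disc 0))).Vert :=
    ⟨0, fun _ => u.maxLab, strictMono_fin_one _, q⟩
  have hsq : ({q0} : Finset _) ∈ (Cx.chains (S.toSimpBase.sys (C.C.yon (disc 0))).Vert).simp := by
    rw [Cx.mem_chains, Finset.coe_singleton]; exact IsChain.singleton
  have e0 : Joined (J.theta X (pt S X u) v) (Real.vertex u0 (hsing u0)) := by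
    have hv : S.toSimpBase.real (C.C.ofValue X (pt S X u)) (Real.vertex q0 hsq) =
        Real.vertex u0 (hsing u0) := by
      refine Real.ext ?_
      show (Finsupp.single q0 (1 : ℝ)).mapDomain _ = Finsupp.single u0 1
      rw [Finsupp.mapDomain_single]
      congr 1
      show (⟨0, fun _ => u.maxLab, strictMono_fin_one _, q ≫ _⟩ :
        (S.toSimpBase.sys X).Vert) = u0
      congr 1
    rw [← hv]
    exact ((space_wc hW hF S (disc 0)).joined (J.ι 0 v) (Real.vertex q0 hsq)).map
      (S.toSimpBase.real (C.C.ofValue X (pt S X u))).continuous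
  exact (e0.trans e1).trans e2

end

end Vale.Agent.P259.Pi
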