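import Vale.Agent.P259.Pi.Whisker
import Vale.Agent.P259.Pi.Iota

/-!
# P259, Pi: carried endomorphisms of discs reflect links

A carried operation on cells sends sides to sides.  By whiskering it is joined to the identity, so
it reflects links between cells with the same sides.
-/

namespace Vale.Agent.P259.Pi

open CategoryTheory Opposite

noncomputable section

variable {E : Ext}

/-- The sides of discs have retractions. -/
theorem exists_retr (hE : E.Contractible) (e : Bool) (i : ℕ) :
    ∃ u : E.M (disc (i + 1)) (disc i), E.face e i ≫ u = 𝟙 _ := by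
  have hp : E.Parallel (𝟙 (E.i.obj (disc i))) (𝟙 _) := by
    cases i with
    | zero => trivial
    | succ i => exact fun _ => rfl
  obtain ⟨u, h0, h1⟩ := hE _ _ hp
  cases e
  exacts [⟨u, h0⟩, ⟨u, h1⟩]

theorem yonMap_id (T : Table) : E.yonMap (𝟙 (E.i.obj T)) = 𝟙 (E.yon T) :=
  ObjectProperty.hom_ext _ (yoneda.map_id _)

theorem yonFace_cancel (hE : E.Contractible) {e : Bool} {i : ℕ} {X : E.Gpd}
    {f g : X ⟶ E.yon (disc i)} (h : f ≫ E.yonMap (E.face e i) = g ≫ E.yonMap (E.face e i)) :
    f = g := by
  obtain ⟨u, hu⟩ := exists_retr hE e i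
  have h' := congrArg (fun k => k ≫ E.yonMap u) h
  simp only [Category.assoc, ← yonMap_comp, hu, yonMap_id, Category.comp_id] at h'
  exact h'

theorem face_cancel (hE : E.Contractible) {e : Bool} {i : ℕ} {T : Table}
    {f g : E.M T (disc i)} (h : f ≫ E.face e i = g ≫ E.face e i) : f = g := by
  obtain ⟨u, hu⟩ := exists_retr hE e i
  have h' := congrArg (fun k => k ≫ u) h
  simpa only [Category.assoc, hu, Category.comp_id] using h'

/-- The representable discs as a tower. -/
def discTower (E : Ext) : MTower E where
  M i _ := E.yon (disc i)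
  up i e' _ := E.yonMap (E.face e' i)
  square i e'' e := by rw [← yonMap_comp, ← yonMap_comp, E.face_face]

/-- The carried family of identities. -/
def discIdFam (E : Ext) (n : ℕ) : (discTower E).Fam n where
  c i _ _ := 𝟙 (E.i.obj (disc i))
  nat i _ e' _ := (Category.comp_id (E.face e' i)).trans (Category.id_comp (E.face e' i)).symm

variable (hE : E.Contractible) {n : ℕ}

include hE in
/-- **Carried operations reflect links between cells with the same sides.** -/
theorem linked_of_carried (φ : (discTower E).Fam n) (K : E.M (disc (n + 1)) (disc (n + 1)))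
    (hK : ∀ e, E.face e n ≫ K = φ.c n le_rfl e ≫ E.face e n) (X : E.Gpd)
    {a a' : E.cells X.obj (n + 1)}
    (hs : ∀ e, E.act X.obj (E.face e n) a' = E.act X.obj (E.face e n) a)
    (h : E.Linked X.obj (E.act X.obj K a)
      (E.act X.obj K a')) :
    E.Linked X.obj a a' := by
  obtain ⟨c⟩ := MTower.exists_change (T := discTower E) hE
    (fun i _ _ => yonCtr E hE (disc i)) φ (discIdFam E n)
  have hpush : ∀ j e0 (hj : j < n),
      (discTower E).push j e0 n hj false ≫ E.yonMap (E.face false n) =
        (discTower E).push j e0 n hj true ≫ E.yonMap (E.face true n) := fun j e0 hj =>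
    ((discTower E).push_up e0 false false hj (hj.trans n.lt_succ_self)).trans
      ((discTower E).push_up e0 true false hj (hj.trans n.lt_succ_self)).symm
  let R0 : (discTower E).Over n (E.yon (disc (n + 1))) :=
    ⟨fun e => E.yonMap (E.face e n), hpush⟩
  have hK0 : R0.Top φ K := hK
  let w : E.cells (E.yon (disc (n + 1))).obj (n + 1) := c.op R0 hK0
  have hw : E.Linked (E.yon (disc (n + 1))).obj w (𝟙 (E.i.obj (disc (n + 1)))) :=
    (yonCtr E hE _).linked _ _ fun e =>
      (c.top R0 hK0 e).trans ((Category.id_comp _).trans (Category.comp_id _).symm)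
  let R : (discTower E).Over n X :=
    ⟨fun e => E.ofValue X (E.act X.obj (E.face e n) a), fun j e0 hj => by
      show (discTower E).push j e0 n hj false ≫ E.ofValue X (E.act X.obj (E.face false n) a) =
        (discTower E).push j e0 n hj true ≫ E.ofValue X (E.act X.obj (E.face true n) a)
      rw [ofValue_act, ofValue_act]
      exact (Category.assoc _ _ _).symm.trans
        ((congrArg (fun f => f ≫ E.ofValue X a) (hpush j e0 hj)).trans (Category.assoc _ _ _))⟩
  have hR : ∀ x, (∀ e, E.act X.obj (E.face e n) x = E.act X.obj (E.face e n) a) →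
      R0.map (E.ofValue X x) = R := fun x hx => by
    have : ∀ e, R0.r e ≫ E.ofValue X x = R.r e := fun e => by
      show E.yonMap (E.face e n) ≫ E.ofValue X x = _
      rw [← ofValue_act, hx]
    show (⟨fun e => R0.r e ≫ E.ofValue X x, _⟩ : (discTower E).Over n X) = _
    congr 1
    exact funext this
  have key : ∀ x, (∀ e, E.act X.obj (E.face e n) x = E.act X.obj (E.face e n) a) →
      ∃ hx : R.Top φ (E.act X.obj K x),
        E.Linked X.obj (c.op R hx) x := fun x hx => by
    have e := hR x hx
    refine ⟨e ▸ R0.map_top (E.ofValue X x) hK0, ?_⟩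
    suffices hlink : ∀ R' (h' : R'.Top φ (E.act X.obj K x)),
        R' = R0.map (E.ofValue X x) → E.Linked X.obj (c.op R' h') x from hlink R _ e.symm
    rintro R' h' rfl
    obtain ⟨L, hL0, hL1⟩ := hw
    refine (congrArg (fun y => E.Linked X.obj y x)
      (c.map R0 (E.ofValue X x) hK0 (R0.map_top _ hK0))).mp ?_
    refine ⟨E.act X.obj L x, ?_, ?_⟩
    · exact (E.act_comp X.obj _ _ x).symm.trans (congrArg (fun f => E.act X.obj f x) hL0)
    · exact ((E.act_comp X.obj _ _ x).symm.trans (congrArg (fun f => E.act X.obj f x) hL1)).trans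
        (E.act_id X.obj x)
  obtain ⟨ha, la⟩ := key a fun _ => rfl
  obtain ⟨ha', la'⟩ := key a' hs
  exact E.linked_trans hE X (E.linked_trans hE X (E.linked_symm hE X.obj la)
    (c.linked R ha ha' h)) la'

end

end Vale.Agent.P259.Pi
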