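import Vale.Agent.P259.Pi.Table
import Vale.Agent.P259.Pi.Iota

/-!
# P259, Pi: the whiskering operation is carried homotopic to the middle position
-/

namespace Vale.Agent.P259.Pi

open CategoryTheory Opposite
open scoped Topology unitInterval

noncomputable section

variable {E : Ext} (B : SimpBase E)

theorem rmap_comp_apply {R S T : Table} (f : E.M R S) (g : E.M S T) (x : space B R) :
    rmap B g (rmap B f x) = rmap B (f ≫ g) x :=
  (DFunLike.congr_fun (rmap_comp B f g) x).symm

theorem iota_face (J : Iota B) (e : Bool) {i : ℕ} {T : Table} (g : E.M (disc (i + 1)) T)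
    (v : Ball i) : rmap B g (J.ι (i + 1) (hemi e i v)) = rmap B (E.face e i ≫ g) (J.ι i v) := by
  rw [show J.ι (i + 1) (hemi e i v) = rmap B (E.face e i) (J.ι i v) from
    DFunLike.congr_fun (J.nat e i) v, rmap_comp_apply]

/-- The whiskering operation and the middle position are joined by a homotopy natural in the
sides, moving the outer sides of dimension `j` only. -/
theorem exists_whisk_homotopy {j : ℕ} (W : WOp E j) (J : Iota B) (hB : ∀ T, WC (space B T)) :
    ∃ (L : Bool → C(Ball j × I, space B (disc (j + 1))))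
      (H : ∀ i (h : j < i), C(Ball i × I, space B (wt j i h))),
      (∀ i h v, H i h (v, 0) = rmap B (i1 h) (J.ι i v)) ∧
      (∀ i h v, H i h (v, 1) = rmap B (W.w i h) (J.ι i v)) ∧
      (∀ e v t, v ∈ rim j → L e (v, t) = rmap B (E.face e j) (J.ι j v)) ∧
      (∀ v, L false (v, 0) = rmap B (E.face true j) (J.ι j v)) ∧
      (∀ v, L false (v, 1) = rmap B (E.face false j) (J.ι j v)) ∧
      (∀ v, L true (v, 0) = rmap B (E.face false j) (J.ι j v)) ∧
      (∀ v, L true (v, 1) = rmap B (E.face true j) (J.ι j v)) ∧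
      (∀ v t, H (j + 1) j.lt_succ_self (hemi false j v, t) =
        rmap B (i0 j.lt_succ_self) (L false (v, t))) ∧
      (∀ v t, H (j + 1) j.lt_succ_self (hemi true j v, t) =
        rmap B (i2 j.lt_succ_self) (L true (v, t))) ∧
      ∀ i (h : j < i) e v t, H (i + 1) (h.trans i.lt_succ_self) (hemi e i v, t) =
        rmap B (shift h e) (H i h (v, t)) := by
  have hrim : ∀ e e' v, v ∈ rim j → rmap B (E.face e j) (J.ι j v) = rmap B (E.face e' j) (J.ι j v) := by
    intro e e' v hv
    cases j with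
    | zero => exact absurd hv (by simp [Ball.rim_zero])
    | succ k =>
      obtain ⟨e'', u, rfl⟩ := Ball.exists_hemi hv
      rw [iota_face, iota_face, E.face_face]
  -- the homotopies of the two outer sides
  have hL : ∀ e, ∃ L : C(Ball j × I, space B (disc (j + 1))),
      (∀ v, L (v, 0) = rmap B (E.face (!e) j) (J.ι j v)) ∧
      (∀ v, L (v, 1) = rmap B (E.face e j) (J.ι j v)) ∧
      ∀ v t, v ∈ rim j → L (v, t) = rmap B (E.face e j) (J.ι j v) := fun e => by
    obtain ⟨L, L0, L1, Lr⟩ := (hB (disc (j + 1))).exists_homotopy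
      ((rmap B (E.face (!e) j)).comp (J.ι j)) ((rmap B (E.face e j)).comp (J.ι j))
      (((rmap B (E.face e j)).comp (J.ι j)).comp ⟨fun p => p.1.1, by fun_prop⟩)
      (fun v => hrim e (!e) v.1 v.2) (fun v => rfl)
    exact ⟨L, L0, L1, fun v t hv => Lr ⟨v, hv⟩ t⟩
  choose L L0 L1 Lr using hL
  let P : ∀ i (h : j < i), C(Ball i × I, space B (wt j i h)) → Prop := fun i h H =>
    (∀ v, H (v, 0) = rmap B (i1 h) (J.ι i v)) ∧
    (∀ v, H (v, 1) = rmap B (W.w i h) (J.ι i v)) ∧
    ∀ v ∈ rim i, ∀ t, rmap B (shift h false) (H (v, t)) = rmap B (shift h true) (H (v, t))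
  -- the first stage
  let h1 := j.lt_succ_self
  let top : Bool → C(Ball j × I, space B (wt j (j + 1) h1)) := fun e =>
    Bool.rec ((rmap B (i0 h1)).comp (L false)) ((rmap B (i2 h1)).comp (L true)) e
  have htop : ∀ v ∈ rim j, ∀ t, top false (v, t) = top true (v, t) := by
    intro v hv t
    show rmap B (i0 h1) (L false (v, t)) = rmap B (i2 h1) (L true (v, t))
    rw [Lr false v t hv, Lr true v t hv, rmap_comp_apply, rmap_comp_apply]
    cases j with
    | zero => exact absurd hv (by simp [Ball.rim_zero])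
    | succ k =>
      obtain ⟨e, u, rfl⟩ := Ball.exists_hemi hv
      rw [iota_face, iota_face]
      exact congrArg (fun g => rmap B g (J.ι k u)) (face_outer_eq e h1)
  obtain ⟨c, hc⟩ := Ball.exists_glue top htop
  obtain ⟨H₁, H₁0, H₁1, H₁r⟩ := (hB (wt j (j + 1) h1)).exists_homotopy
    ((rmap B (i1 h1)).comp (J.ι (j + 1))) ((rmap B (W.w (j + 1) h1)).comp (J.ι (j + 1))) c
    (fun x => by
      obtain ⟨e, v, hv⟩ := Ball.exists_hemi x.2
      obtain rfl : (⟨hemi e j v, Ball.hemi_mem_rim e v⟩ : rim (j + 1)) = x := Subtype.ext hv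
      rw [hc]
      refine Eq.trans ?_ (iota_face B J e (i1 h1) v).symm
      cases e
      · show rmap B (i0 h1) (L false (v, 0)) = _
        rw [L0 false, rmap_comp_apply]
        exact congrArg (fun g => rmap B g (J.ι j v)) (glue_left h1)
      · show rmap B (i2 h1) (L true (v, 0)) = _
        rw [L0 true, rmap_comp_apply]
        exact congrArg (fun g => rmap B g (J.ι j v)) (glue_right h1).symm)
    (fun x => by
      obtain ⟨e, v, hv⟩ := Ball.exists_hemi x.2
      obtain rfl : (⟨hemi e j v, Ball.hemi_mem_rim e v⟩ : rim (j + 1)) = x := Subtype.ext hv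
      rw [hc]
      refine Eq.trans ?_ (iota_face B J e (W.w (j + 1) h1) v).symm
      rw [W.base]
      cases e
      · show rmap B (i0 h1) (L false (v, 1)) = _
        rw [L1 false, rmap_comp_apply]
        rfl
      · show rmap B (i2 h1) (L true (v, 1)) = _
        rw [L1 true, rmap_comp_apply]
        rfl)
  have hh₁ : ∀ e v t, H₁ (hemi e j v, t) = top e (v, t) := fun e v t =>
    (H₁r ⟨_, Ball.hemi_mem_rim e v⟩ t).trans (hc e v t)
  have hP₁ : P (j + 1) h1 H₁ := by
    refine ⟨H₁0, H₁1, fun v hv t => ?_⟩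
    obtain ⟨e, u, rfl⟩ := Ball.exists_hemi hv
    rw [hh₁]
    cases e
    · show rmap B _ (rmap B (i0 h1) _) = rmap B _ (rmap B (i0 h1) _)
      rw [rmap_comp_apply, rmap_comp_apply, i0_shift, i0_shift]
    · show rmap B _ (rmap B (i2 h1) _) = rmap B _ (rmap B (i2 h1) _)
      rw [rmap_comp_apply, rmap_comp_apply, i2_shift, i2_shift]
  -- the next stages
  have hn : ∀ i (h : j < i) (H : C(Ball i × I, space B (wt j i h))), P i h H →
      ∃ G : C(Ball (i + 1) × I, space B (wt j (i + 1) (h.trans i.lt_succ_self))),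
        (∀ e v t, G (hemi e i v, t) = rmap B (shift h e) (H (v, t))) ∧ P (i + 1) _ G := by
    intro i h H hH
    obtain ⟨c, hc⟩ := Ball.exists_glue (fun e => (rmap B (shift h e)).comp H) hH.2.2
    obtain ⟨G, G0, G1, Gr⟩ := (hB (wt j (i + 1) (h.trans i.lt_succ_self))).exists_homotopy
      ((rmap B (i1 _)).comp (J.ι (i + 1))) ((rmap B (W.w (i + 1) _)).comp (J.ι (i + 1))) c
      (fun x => by
        obtain ⟨e, v, hv⟩ := Ball.exists_hemi x.2
        obtain rfl : (⟨hemi e i v, Ball.hemi_mem_rim e v⟩ : rim (i + 1)) = x := Subtype.ext hv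
        rw [hc]
        refine Eq.trans ?_ (iota_face B J e _ v).symm
        show rmap B (shift h e) (H (v, 0)) = _
        rw [hH.1, rmap_comp_apply, i1_shift])
      (fun x => by
        obtain ⟨e, v, hv⟩ := Ball.exists_hemi x.2
        obtain rfl : (⟨hemi e i v, Ball.hemi_mem_rim e v⟩ : rim (i + 1)) = x := Subtype.ext hv
        rw [hc]
        refine Eq.trans ?_ (iota_face B J e _ v).symm
        show rmap B (shift h e) (H (v, 1)) = _
        rw [hH.2.1, rmap_comp_apply, W.step])
    have hG : ∀ e v t, G (hemi e i v, t) = rmap B (shift h e) (H (v, t)) := fun e v t =>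
      (Gr ⟨_, Ball.hemi_mem_rim e v⟩ t).trans (hc e v t)
    refine ⟨G, hG, G0, G1, fun v hv t => ?_⟩
    obtain ⟨e, u, rfl⟩ := Ball.exists_hemi hv
    rw [hG, rmap_comp_apply, rmap_comp_apply, shift_shift h e false true]
  choose nx hnx hnxP using hn
  let s : ∀ d i (h : j < i), i = j + 1 + d → {H : C(Ball i × I, space B (wt j i h)) // P i h H} :=
    fun d => Nat.rec (motive := fun d => ∀ i (h : j < i), i = j + 1 + d → {H // P i h H})
      (fun i h hi => by subst hi; exact ⟨H₁, hP₁⟩)
      (fun d ih i h hi => by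
        subst hi
        exact ⟨nx (j + 1 + d) (by omega) _ (ih (j + 1 + d) (by omega) rfl).2, hnxP _ _ _ _⟩) d
  have sc : ∀ d d' i (h : j < i) (hi : i = j + 1 + d) (hi' : i = j + 1 + d'),
      s d i h hi = s d' i h hi' := fun d d' i h hi hi' => by
    obtain rfl : d = d' := by omega
    rfl
  refine ⟨L, fun i h => (s (i - j - 1) i h (by omega)).1, fun i h => (s _ i h _).2.1,
    fun i h => (s _ i h _).2.2.1, fun e v t => Lr e v t, L0 false, L1 false, L0 true, L1 true,
    fun v t => ?_, fun v t => ?_, fun i h e v t => ?_⟩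
  · show (s _ (j + 1) _ _).1 _ = _
    rw [sc _ 0 (j + 1) _ _ rfl]
    exact hh₁ false v t
  · show (s _ (j + 1) _ _).1 _ = _
    rw [sc _ 0 (j + 1) _ _ rfl]
    exact hh₁ true v t
  · obtain ⟨d, rfl⟩ : ∃ d, i = j + 1 + d := ⟨i - j - 1, by omega⟩
    show (s _ (j + 1 + d + 1) _ _).1 _ = rmap B _ ((s _ (j + 1 + d) _ _).1 _)
    rw [sc _ (d + 1) (j + 1 + d + 1) _ _ rfl, sc _ d (j + 1 + d) _ _ rfl]
    exact hnx _ _ _ _ e v t

end

end Vale.Agent.P259.Pi
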