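import Vale.Agent.P259.Pi.Whisker
import Vale.Agent.P259.Pi.WhiskHomotopy
import Vale.Agent.P259.Top.Pair

/-!
# P259, Pi: a change of sides keeps the class

A cell with sides from a contractible model is whiskered into a cell with any other parallel sides,
and the two maps of pairs are homotopic.
-/

namespace Vale.Agent.P259.Pi

open CategoryTheory Opposite
open scoped Topology unitInterval

noncomputable section

variable {E : Ext} (B : SimpBase E)

/-- The map given by a value. -/
abbrev rv (X : E.Gpd) {T : Table} (x : E.at X.obj T) : C(space B T, (B.sys X).Space) :=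
  B.real (E.ofValue X x)

theorem rv_rmap (X : E.Gpd) {S T : Table} (g : E.M S T) (x : E.at X.obj T) (p : space B S) :
    rv B X x (rmap B g p) = rv B X (E.act X.obj g x) p := by
  rw [rv, rv, ofValue_act, B.real_comp]
  rfl

theorem rv_map {X Y : E.Gpd} (f : X ⟶ Y) {T : Table} (x : E.at X.obj T) (p : space B T) :
    rv B Y (f.hom.app _ x) p = B.real f (rv B X x p) := by
  rw [rv, rv, ofValue_app_cell, B.real_comp]
  rfl

theorem rv_iota (J : Iota B) (X : E.Gpd) {n : ℕ} (a : E.cells X.obj n) (v : Ball n) :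
    rv B X a (J.ι n v) = J.theta X a v :=
  rfl

/-- The tower with one model. -/
@[reducible] def constTower (Z : E.Gpd) : MTower E where
  M _ _ := Z
  up _ _ _ := 𝟙 Z
  square _ _ _ := rfl

variable {Z : E.Gpd}

theorem constTower_push (j : ℕ) (e0 : Bool) :
    ∀ (i : ℕ) (h : j < i) (e : Bool), (constTower Z).push j e0 i h e = 𝟙 Z
  | 0, h, _ => absurd h (Nat.not_lt_zero j)
  | i + 1, h, e => by
    by_cases hi : j = i
    · subst hi
      exact (constTower Z).push_base j e0 e h
    · have h' : j < i := by omega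
      rw [(constTower Z).push_succ e0 e h' h, constTower_push j e0 i h' false]
      exact Category.id_comp _

theorem constTower_push_app {j i : ℕ} (e0 e : Bool) (h : j < i) {m : ℕ}
    (z : E.cells Z.obj m) : E.appCell ((constTower Z).push j e0 i h e).hom m z = z := by
  rw [constTower_push j e0 i h e]
  rfl

/-- The maps into a model of the constant tower. -/
def constOver {X : E.Gpd} (r : Z ⟶ X) (n : ℕ) : (constTower Z).Over n X where
  r _ := r
  compat j e0 h :=
    (congrArg (fun f : Z ⟶ Z => f ≫ r) ((constTower_push j e0 n h false).trans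
      (constTower_push j e0 n h true).symm) :)

theorem constOver_pr {X : E.Gpd} (r : Z ⟶ X) {n : ℕ} (j : ℕ) (e0 : Bool) (h : j ≤ n) :
    (constOver r n).pr j e0 h = r := by
  rcases h.lt_or_eq with hlt | rfl
  · rw [(constOver r n).pr_lt e0 false hlt h, constTower_push j e0 n hlt false]
    exact Category.id_comp _
  · exact (constOver r j).pr_self e0 h

/-- The sides of two parallel cells, as a family in the constant tower. -/
def sideFam {n : ℕ} (b : Bool → E.cells Z.obj n) (hb : E.Par Z.obj (b false) (b true)) :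
    (constTower Z).Fam n where
  c i hi e := if h : i = n then h ▸ b e
    else E.act Z.obj (sd E e (lt_of_le_of_ne hi h)) (b false)
  nat i h e' e := by
    rw [dif_neg h.ne]
    rcases (Nat.succ_le_of_lt h).lt_or_eq with h' | h'
    · rw [dif_neg h'.ne, ← E.act_comp]
      refine (congrArg (fun g => E.act Z.obj g (b false)) (sd_sd e' e i.lt_succ_self h')).trans ?_
      rfl
    · subst h'
      rw [dif_pos rfl]
      show E.act Z.obj (E.face e' i) (b e) = E.act Z.obj (E.face e' i) (b false)
      cases e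
      exacts [rfl, (hb e').symm]

theorem sideFam_top {n : ℕ} (b : Bool → E.cells Z.obj n) (hb : E.Par Z.obj (b false) (b true))
    (e : Bool) (h : n ≤ n) : (sideFam b hb).c n h e = b e :=
  dif_pos rfl

theorem fam_par {n : ℕ} (φ : (constTower Z).Fam n) :
    E.Par Z.obj (φ.c n le_rfl false) (φ.c n le_rfl true) := by
  cases n with
  | zero => trivial
  | succ m => exact fun e => (φ.nat m m.lt_succ_self e false).trans (φ.nat m m.lt_succ_self e true).symm

theorem map_whisk_eq {X : E.Gpd} (r : Z ⟶ X) {n j : ℕ} {φ ψ : (constTower Z).Fam n}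
    (d : MTower.Step φ ψ j) (h : j < n) {K : E.cells X.obj (n + 1)}
    (hK : (constOver r n).Top φ K) (e : Bool) :
    Whisk.side (h := h) e (d.topWhisk (constOver r n) hK) = (d.whisk h le_rfl e).map r := by
  refine Whisk.ext' ?_ (hK e) ?_
  · show E.appCell ((constOver r n).pr j false d.le).hom _ (d.l false) =
      E.appCell r.hom _ (E.appCell ((constTower Z).push j false n h e).hom _ (d.l false))
    rw [constTower_push_app, constOver_pr]
  · show E.appCell ((constOver r n).pr j true d.le).hom _ (d.l true) =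
      E.appCell r.hom _ (E.appCell ((constTower Z).push j true n h e).hom _ (d.l true))
    rw [constTower_push_app, constOver_pr]

theorem side_whisk_eq {n j m : ℕ} {φ ψ : (constTower Z).Fam n} (d : MTower.Step φ ψ j)
    (h : j < m) (hm : m + 1 ≤ n) (e' e : Bool) :
    Whisk.side (h := h) e' (d.whisk (h.trans m.lt_succ_self) hm e) =
      d.whisk h (m.le_succ.trans hm) e' := by
  refine Whisk.ext' ?_ (φ.nat m hm e' e) ?_
  · exact (constTower_push_app false e _ (d.l false)).trans
      (constTower_push_app false e' _ (d.l false)).symm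
  · exact (constTower_push_app true e _ (d.l true)).trans
      (constTower_push_app true e' _ (d.l true)).symm

variable {X : E.Gpd} (r : Z ⟶ X) {n j : ℕ} {φ ψ : (constTower Z).Fam n}

/-- One change of sides keeps the class. -/
theorem exists_step_hom (J : Iota B) (hB : ∀ T, WC (space B T)) (d : MTower.Step φ ψ j)
    (W : WOp E j) {K : E.cells X.obj (n + 1)} (hK : (constOver r n).Top φ K)
    (w₀ : C(rim (n + 1), (B.sys Z).Space))
    (hw₀ : ∀ e v, w₀ ⟨hemi e n v, Ball.hemi_mem_rim e v⟩ = J.theta Z (φ.c n le_rfl e) v)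
    (hc₀ : ∀ v : rim (n + 1), J.theta X K v.1 = B.real r (w₀ v)) :
    ∃ (w₁ : C(rim (n + 1), (B.sys Z).Space))
      (hc₁ : ∀ v : rim (n + 1), J.theta X (d.out (constOver r n) W hK) v.1 = B.real r (w₁ v)),
      (∀ e v, w₁ ⟨hemi e n v, Ball.hemi_mem_rim e v⟩ = J.theta Z ((d.fam W).c n le_rfl e) v) ∧
      (PMap.mk (J.theta X K) w₀ hc₀).Hom
        (PMap.mk (J.theta X (d.out (constOver r n) W hK)) w₁ hc₁) := by
  obtain ⟨L, H, H0, H1, Lr, L00, L01, L10, L11, Hf, Ht, Hs⟩ := exists_whisk_homotopy B W J hB
  let q := d.topWhisk (constOver r n) hK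
  let hj : j < n + 1 := Nat.lt_succ_of_le d.le
  let G : C(Ball (n + 1) × I, (B.sys X).Space) := (rv B X q.val).comp (H (n + 1) hj)
  obtain ⟨sh, hrim, hs0, hs1, htop⟩ : ∃ sh : Bool → C(Ball n × I, (B.sys Z).Space),
      (∀ v ∈ rim n, ∀ t, sh false (v, t) = sh true (v, t)) ∧
      (∀ e v, sh e (v, 0) = J.theta Z (φ.c n le_rfl e) v) ∧
      (∀ e v, sh e (v, 1) = J.theta Z ((d.fam W).c n le_rfl e) v) ∧
      ∀ e v t, G (hemi e n v, t) = B.real r (sh e (v, t)) := by
    rcases d.le.lt_or_eq with hlt | heq
    · refine ⟨fun e => (rv B Z (d.whisk hlt le_rfl e).val).comp (H n hlt), fun v hv t => ?_,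
        fun e v => ?_, fun e v => ?_, fun e v t => ?_⟩
      · obtain _ | m := n
        · exact absurd hv (by simp [Ball.rim_zero])
        obtain ⟨e', u, rfl⟩ := Ball.exists_hemi hv
        show rv B Z _ (H (m + 1) hlt (hemi e' m u, t)) = rv B Z _ (H (m + 1) hlt (hemi e' m u, t))
        rcases (Nat.lt_succ_iff.1 hlt).lt_or_eq with h' | rfl
        · rw [Hs m h', rv_rmap, rv_rmap, Whisk.act_shift, Whisk.act_shift,
            side_whisk_eq d h' le_rfl, side_whisk_eq d h' le_rfl]
        · cases e'
          · rw [Hf, rv_rmap, rv_rmap, Whisk.act_i0, Whisk.act_i0]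
            exact congrArg (fun z => rv B Z z (L false (u, t)))
              ((constTower_push_app (Z := Z) false false hlt (d.l false)).trans
                (constTower_push_app (Z := Z) false true hlt (d.l false)).symm)
          · rw [Ht, rv_rmap, rv_rmap, Whisk.act_i2, Whisk.act_i2]
            exact congrArg (fun z => rv B Z z (L true (u, t)))
              ((constTower_push_app (Z := Z) true false hlt (d.l true)).trans
                (constTower_push_app (Z := Z) true true hlt (d.l true)).symm)
      · show rv B Z _ (H n hlt (v, 0)) = _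
        rw [H0, rv_rmap, Whisk.act_i1]
        rfl
      · show rv B Z _ (H n hlt (v, 1)) = _
        rw [H1, rv_rmap]
        exact congrArg (fun z => J.theta Z z v)
          ((dif_pos hlt :) : (d.fam W).c n le_rfl e = (d.whisk hlt le_rfl e).out W).symm
      · show rv B X q.val (H (n + 1) hj (hemi e n v, t)) = _
        rw [Hs n hlt, rv_rmap, Whisk.act_shift, map_whisk_eq r d hlt hK e, ← Whisk.map_val, rv_map]
        rfl
    · subst heq
      have hl : ∀ e, E.appCell ((constOver r j).pr j e d.le).hom _ (d.l e) =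
          E.appCell r.hom _ (d.l e) := fun e => by
        rw [constOver_pr]
      refine ⟨fun e => (rv B Z (d.l e)).comp (L e), fun v hv t => ?_, fun e v => ?_, fun e v => ?_,
        fun e v t => ?_⟩
      · show rv B Z _ (L false (v, t)) = rv B Z _ (L true (v, t))
        rw [Lr false v t hv, Lr true v t hv, rv_rmap, rv_rmap, d.left_src, d.right_tgt]
        obtain _ | m := j
        · exact absurd hv (by simp [Ball.rim_zero])
        obtain ⟨e', u, rfl⟩ := Ball.exists_hemi hv
        show J.theta Z _ (hemi e' m u) = J.theta Z _ (hemi e' m u)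
        rw [← ContinuousMap.comp_apply, ← ContinuousMap.comp_apply, J.theta_hemi, J.theta_hemi]
        exact congrArg (fun z => J.theta Z z u)
          ((ψ.nat m m.lt_succ_self e' false).trans (ψ.nat m m.lt_succ_self e' true).symm)
      · show rv B Z _ (L e (v, 0)) = _
        cases e
        · rw [L00, rv_rmap, d.left_tgt]
          rfl
        · rw [L10, rv_rmap, d.right_src]
          rfl
      · show rv B Z _ (L e (v, 1)) = _
        refine Eq.trans ?_ (congrArg (fun z => J.theta Z z v) (d.fam_agree W le_rfl e)).symm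
        cases e
        · rw [L01, rv_rmap, d.left_src]
          rfl
        · rw [L11, rv_rmap, d.right_tgt]
          rfl
      · show rv B X q.val (H (j + 1) hj (hemi e j v, t)) = _
        cases e
        · rw [Hf, rv_rmap, Whisk.act_i0]
          exact (congrArg (fun z => rv B X z (L false (v, t))) (hl false)).trans
            (rv_map B r (d.l false) _)
        · rw [Ht, rv_rmap, Whisk.act_i2]
          exact (congrArg (fun z => rv B X z (L true (v, t))) (hl true)).trans
            (rv_map B r (d.l true) _)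
  obtain ⟨h, hh⟩ := Ball.exists_glue sh hrim
  have hG : ∀ (b : rim (n + 1)) t, G (b.1, t) = B.real r (h (b, t)) := by
    rintro ⟨x, hx⟩ t
    obtain ⟨e, v, rfl⟩ := Ball.exists_hemi hx
    exact (htop e v t).trans (congrArg (B.real r) (hh e v t).symm)
  have G0 : ∀ x, G (x, 0) = J.theta X K x := fun x => by
    show rv B X q.val (H (n + 1) hj (x, 0)) = _
    rw [H0, rv_rmap, Whisk.act_i1]
    rfl
  have G1 : ∀ x, G (x, 1) = J.theta X (d.out (constOver r n) W hK) x := fun x => by
    show rv B X q.val (H (n + 1) hj (x, 1)) = _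
    rw [H1, rv_rmap]
    rfl
  refine ⟨h.comp ⟨fun b => (b, 1), by fun_prop⟩, fun b => (G1 b.1).symm.trans (hG b 1),
    fun e v => (hh e v 1).trans (hs1 e v), G, h, hG, G0, G1, ?_, fun b => rfl⟩
  rintro ⟨x, hx⟩
  obtain ⟨e, v, rfl⟩ := Ball.exists_hemi hx
  exact ((hh e v 0).trans (hs0 e v)).trans (hw₀ e v).symm

/-- **A change of sides keeps the class.** -/
theorem exists_change_class (J : Iota B) (hB : ∀ T, WC (space B T)) (hE : E.Contractible)
    (hZ : E.Ctr Z.obj) {n : ℕ} {b b' : Bool → E.cells Z.obj n}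
    (hb : E.Par Z.obj (b false) (b true)) (hb' : E.Par Z.obj (b' false) (b' true))
    (w w' : C(rim (n + 1), (B.sys Z).Space))
    (hw : ∀ e v, w ⟨hemi e n v, Ball.hemi_mem_rim e v⟩ = J.theta Z (b e) v)
    (hw' : ∀ e v, w' ⟨hemi e n v, Ball.hemi_mem_rim e v⟩ = J.theta Z (b' e) v)
    (K : E.cells X.obj (n + 1))
    (hK : E.HasSides X.obj K (E.appCell r.hom n (b' false)) (E.appCell r.hom n (b' true)))
    (hKw : ∀ v : rim (n + 1), J.theta X K v.1 = B.real r (w' v)) :
    ∃ (a : E.cells X.obj (n + 1))
      (_ : E.HasSides X.obj a (E.appCell r.hom n (b false)) (E.appCell r.hom n (b true)))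
      (ha : ∀ v : rim (n + 1), J.theta X a v.1 = B.real r (w v)),
      (PMap.mk (J.theta X K) w' hKw).Hom (PMap.mk (J.theta X a) w ha) := by
  suffices H : ∀ j, j ≤ n + 1 → ∃ φ : (constTower Z).Fam n,
      (∀ i hi e, i < j → φ.c i hi e = (sideFam b hb).c i hi e) ∧
      ∃ (K₁ : E.cells X.obj (n + 1)) (_ : (constOver r n).Top φ K₁)
        (w₁ : C(rim (n + 1), (B.sys Z).Space))
        (_ : ∀ e v, w₁ ⟨hemi e n v, Ball.hemi_mem_rim e v⟩ = J.theta Z (φ.c n le_rfl e) v)
        (hc : ∀ v : rim (n + 1), J.theta X K₁ v.1 = B.real r (w₁ v)),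
        (PMap.mk (J.theta X K) w' hKw).Hom (PMap.mk (J.theta X K₁) w₁ hc) by
    obtain ⟨φ, hφ, K₁, hK₁, w₁, hw₁, hc, hhom⟩ := H (n + 1) le_rfl
    have hb₁ : ∀ e, φ.c n le_rfl e = b e := fun e =>
      (hφ n le_rfl e n.lt_succ_self).trans (sideFam_top b hb e le_rfl)
    have hww : w₁ = w := ContinuousMap.ext fun ⟨x, hx⟩ => by
      obtain ⟨e, v, rfl⟩ := Ball.exists_hemi hx
      rw [hw₁, hw, hb₁]
    subst hww
    exact ⟨K₁, ⟨(hK₁ false).trans (congrArg (E.appCell r.hom n) (hb₁ false)),
      (hK₁ true).trans (congrArg (E.appCell r.hom n) (hb₁ true))⟩, hc, hhom⟩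
  intro j
  induction j with
  | zero =>
    intro _
    refine ⟨sideFam b' hb', fun i hi e h => absurd h (Nat.not_lt_zero i), K, fun e => ?_, w',
      fun e v => (hw' e v).trans (congrArg (fun z => J.theta Z z v) (sideFam_top b' hb' e le_rfl).symm),
      hKw, PMap.Hom.refl _⟩
    refine Eq.trans ?_ (congrArg (E.appCell r.hom n) (sideFam_top b' hb' e le_rfl)).symm
    cases e
    exacts [hK.1, hK.2]
  | succ j ih =>
    intro hj
    obtain ⟨φ, hφ, K₁, hK₁, w₁, hw₁, hc, hhom⟩ := ih (by omega)
    obtain ⟨W⟩ := exists_wop hE j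
    obtain ⟨d⟩ := MTower.exists_step (fun _ => hZ) φ (sideFam b hb) (by omega)
      fun i h e => hφ i _ e h
    obtain ⟨w₂, hc₂, hw₂, hhom₂⟩ := exists_step_hom B r J hB d W hK₁ w₁ hw₁ hc
    exact ⟨d.fam W, fun i hi e h => d.fam_agree W (Nat.lt_succ_iff.1 h) e,
      d.out (constOver r n) W hK₁, d.out_top (constOver r n) W hK₁, w₂, hw₂, hc₂,
      hhom.trans hhom₂⟩

end

end Vale.Agent.P259.Pi
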