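import Vale.Agent.P259.Pi.Ball
import Vale.Agent.P259.Real.Approx
import Vale.Agent.P259.Complex.Simplex

/-!
# P259, Pi: discs as simplices, one hemisphere to the face and the other to the horn
-/

namespace Vale.Agent.P259.Pi

open Set
open P259.Complex
open scoped Topology unitInterval

noncomputable section

instance ball_tietze (n : ℕ) : TietzeExtension.{0, 0} (Ball n) :=
  have : TietzeExtension.{0, 0} (P259.Top.Disc n) :=
    Metric.instTietzeExtensionClosedBall ℝ (0 : EuclideanSpace ℝ (Fin n)) one_pos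
  TietzeExtension.of_homeo (ballDisc n)

/-- The two hemispheres of a ball. -/
def ballFaces (n : ℕ) : TwoFaces (Ball n) (Ball (n + 1)) where
  s := hemi false n
  t := hemi true n
  rim := rim n
  rim_closed := Ball.isClosed_rim n
  s_inj _ _ h := (Ball.hemi_inj h).1
  t_inj _ _ h := (Ball.hemi_inj h).1
  inter_iff x y := by
    constructor
    · intro h
      obtain ⟨rfl, h' | h'⟩ := Ball.hemi_inj h
      · exact absurd h' (by decide)
      · exact ⟨rfl, h'⟩
    · rintro ⟨rfl, hx⟩
      exact Ball.hemi_eq_of_rim _ _ hx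

theorem ballFaces_bdry (n : ℕ) : (ballFaces n).bdry = rim (n + 1) := by
  ext w
  constructor
  · rintro (⟨v, rfl⟩ | ⟨v, rfl⟩) <;> exact Ball.hemi_mem_rim _ v
  · intro hw
    obtain ⟨e, v, rfl⟩ := Ball.exists_hemi hw
    cases e
    · exact Or.inl ⟨v, rfl⟩
    · exact Or.inr ⟨v, rfl⟩

/-- Discs to coordinate simplices, one hemisphere to the face, the other to the horn. -/
theorem exists_delta_coord :
    ∃ δ : ∀ n, C(Ball n, Simp.Δ n),
      (∀ n v, δ (n + 1) (hemi false n v) = Simp.face n (δ n v)) ∧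
      (∀ n v, δ (n + 1) (hemi true n v) = Simp.horn n (δ n v)) ∧
      ∀ n, PairEquiv (rim n) (Simp.bdry n) (δ n) := by
  let Stage : ℕ → Type := fun n => {f : C(Ball n, Simp.Δ n) // PairEquiv (rim n) (Simp.bdry n) f}
  have step : ∀ n (f : Stage n), ∃ g : Stage (n + 1),
      (∀ v, g.1 (hemi false n v) = Simp.face n (f.1 v)) ∧
        ∀ v, g.1 (hemi true n v) = Simp.horn n (f.1 v) := by
    intro n f
    let h : Bool → C(Ball n × Unit, Simp.Δ (n + 1)) := fun e =>
      ((if e then Simp.horn n else Simp.face n).comp f.1).comp ⟨Prod.fst, continuous_fst⟩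
    obtain ⟨c, hc⟩ := Ball.exists_glue h fun v hv _ =>
      ((Simp.twoFaces n).inter_iff (f.1 v) (f.1 v)).2 ⟨rfl, f.2.1 hv⟩
    have : TietzeExtension.{0, 0} (Simp.Δ (n + 1)) := Simp.instTietzeExtension (n + 1)
    obtain ⟨F, hF⟩ := ContinuousMap.exists_restrict_eq (Ball.isClosed_rim (n + 1))
      (c.comp ⟨fun w => (w, ()), by fun_prop⟩)
    have hh : ∀ e v, F (hemi e n v) = h e (v, ()) := fun e v =>
      (DFunLike.congr_fun hF ⟨_, Ball.hemi_mem_rim e v⟩).trans (hc e v ())
    have : TietzeExtension.{0, 0} (Simp.Δ n) := Simp.instTietzeExtension n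
    have hE : PairEquiv (ballFaces n).bdry (Simp.twoFaces n).bdry F :=
      PairEquiv.of_faces (ballFaces n) (Simp.twoFaces n) F f.1 f.1 (hh false) (hh true) f.2
    rw [ballFaces_bdry, Simp.twoFaces_bdry] at hE
    exact ⟨⟨F, hE⟩, hh false, hh true⟩
  have base : PairEquiv (rim 0) (Simp.bdry 0)
      (ContinuousMap.const (Ball 0) (⟨fun _ => 1, fun _ => zero_le_one, by simp⟩ : Simp.Δ 0)) := by
    rw [Ball.rim_zero, Simp.bdry_zero]
    have : Nonempty (Ball 0) := ⟨Ball.pt⟩
    exact PairEquiv.of_subsingleton _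
  let f : ∀ n, Stage n := fun n => Nat.rec ⟨_, base⟩ (fun m g => (step m g).choose) n
  exact ⟨fun n => (f n).1, fun n => (step n (f n)).choose_spec.1,
    fun n => (step n (f n)).choose_spec.2, fun n => (f n).2⟩

/-- A homeomorphism of pairs after an equivalence of pairs. -/
theorem pairEquiv_homeo {X Y Y' : Type} [TopologicalSpace X] [TopologicalSpace Y]
    [TopologicalSpace Y'] {A : Set X} {B : Set Y} {B' : Set Y'} {f : C(X, Y)}
    (hf : PairEquiv A B f) (e : Y' ≃ₜ Y) (he : ∀ y, e y ∈ B ↔ y ∈ B') :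
    PairEquiv A B' ((e.symm : C(Y, Y')).comp f) := by
  obtain ⟨hm, φ, hφ, hl, ⟨F, hF⟩⟩ := hf
  have hes : ∀ y, e.symm y ∈ B' ↔ y ∈ B := fun y => by rw [← he, e.apply_symm_apply]
  refine ⟨fun x hx => (hes _).2 (hm hx), φ.comp (e : C(Y', Y)), fun y hy => hφ ((he y).2 hy), ?_, ?_⟩
  · convert hl using 1
    ext x
    simp
  · refine ⟨⟨⟨fun p => e.symm (F (p.1, e p.2)), by fun_prop⟩, fun y => ?_, fun y => ?_⟩,
      fun t y hy => (hes _).2 (hF t _ ((he y).2 hy))⟩
    · show e.symm (F (0, e y)) = _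
      rw [F.apply_zero]
      rfl
    · show e.symm (F (1, e y)) = y
      rw [F.apply_one]
      exact e.symm_apply_apply y

/-- The simplex as a realisation. -/
abbrev Simplex (k : ℕ) : Type := P259.Complex.Real (Cx.full (Fin (k + 1)))

/-- Discs to simplices: the source hemisphere to the face opposite the first vertex, the target
hemisphere into the horn. -/
theorem exists_delta :
    ∃ (d : ∀ n, C(Ball n, Simplex n)) (hn : ∀ n, C(Simplex n, Simplex (n + 1))),
      (∀ n v i, (d (n + 1) (hemi false n v)).w i.succ = (d n v).w i) ∧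
      (∀ n v, (d (n + 1) (hemi false n v)).w 0 = 0) ∧
      (∀ n v, d (n + 1) (hemi true n v) = hn n (d n v)) ∧
      (∀ n q, ∃ i : Fin (n + 1), (hn n q).w i.succ = 0) ∧
      ∀ n, PairEquiv (rim n) (Faces.proper n).space (d n) := by
  obtain ⟨δ, h0, h1, hE⟩ := exists_delta_coord
  let H : ∀ n, Simplex n ≃ₜ Simp.Δ n := fun n => P259.Complex.Real.fullHomeo n
  have hw : ∀ n (x : Simp.Δ n) v, ((H n).symm x).w v = x.1 v := fun n x v =>
    congrFun (congrArg Subtype.val ((H n).apply_symm_apply x)) v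
  refine ⟨fun n => ((H n).symm : C(Simp.Δ n, Simplex n)).comp (δ n),
    fun n => ((H (n + 1)).symm : C(Simp.Δ (n + 1), Simplex (n + 1))).comp
      ((Simp.horn n).comp (H n : C(Simplex n, Simp.Δ n))), fun n v i => ?_, fun n v => ?_,
    fun n v => ?_, fun n q => ?_, fun n => pairEquiv_homeo (hE n) (H n) fun y => ?_⟩
  · show ((H (n + 1)).symm (δ (n + 1) (hemi false n v))).w i.succ = ((H n).symm (δ n v)).w i
    rw [hw, hw, h0, Simp.face_succ]
  · show ((H (n + 1)).symm (δ (n + 1) (hemi false n v))).w 0 = 0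
    rw [hw, h0, Simp.face_zero]
  · show (H (n + 1)).symm (δ (n + 1) (hemi true n v))
      = (H (n + 1)).symm (Simp.horn n (H n ((H n).symm (δ n v))))
    rw [h1, Homeomorph.apply_symm_apply]
  · obtain ⟨i, -, hi⟩ := Finset.exists_mem_eq_inf' (H := Finset.univ_nonempty)
      (s := Finset.univ) (f := (H n q).1)
    refine ⟨i, ?_⟩
    show ((H (n + 1)).symm (Simp.horn n (H n q))).w i.succ = 0
    rw [hw, Simp.horn_succ]
    exact sub_eq_zero.2 hi.symm
  · show (∃ v, y.w v = 0) ↔ y.w.support ≠ Finset.univ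
    simp [Finset.eq_univ_iff_forall]

end

end Vale.Agent.P259.Pi
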