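import Vale.Agent.P259.Pi.Table

/-!
# P259, Pi: whiskered cells of a model
-/

namespace Vale.Agent.P259.Pi

open CategoryTheory Opposite

noncomputable section

variable {E : Ext} {j i : ℕ} (h : j < i)

/-- Cells which can be whiskered: `a`, then `b`, then `c`, glued along dimension `j`. -/
structure Whisk (X : E.Gpd) : Type where
  a : E.cells X.obj (j + 1)
  b : E.cells X.obj i
  c : E.cells X.obj (j + 1)
  hab : E.act X.obj (E.face true j) a = E.act X.obj (sd E false h) b
  hbc : E.act X.obj (sd E true h) b = E.act X.obj (E.face false j) c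

variable {h} {X Y : E.Gpd}

theorem Whisk.exists_val (q : Whisk h X) : ∃ x : E.at X.obj (wt j i h),
    E.act X.obj (i0 h) x = q.a ∧ E.act X.obj (i1 h) x = q.b ∧ E.act X.obj (i2 h) x = q.c := by
  obtain ⟨x, hx, -⟩ := X.property (wt j i h)
    (fin3 (P := fun p => E.at X.obj (disc ((wt j i h).top p))) q.a q.b q.c)
    (fun p => by
      obtain ⟨k, hk⟩ := p
      rcases k with _ | _ | k
      · exact q.hab
      · exact q.hbc
      · exact absurd hk (by show ¬ k + 2 < 2; omega))
  exact ⟨x, hx (0 : Fin 3), hx (1 : Fin 3), hx (2 : Fin 3)⟩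

/-- The value at the whiskering table. -/
def Whisk.val (q : Whisk h X) : E.at X.obj (wt j i h) := q.exists_val.choose

theorem Whisk.act_i0 (q : Whisk h X) : E.act X.obj (i0 h) q.val = q.a :=
  q.exists_val.choose_spec.1

theorem Whisk.act_i1 (q : Whisk h X) : E.act X.obj (i1 h) q.val = q.b :=
  q.exists_val.choose_spec.2.1

theorem Whisk.act_i2 (q : Whisk h X) : E.act X.obj (i2 h) q.val = q.c :=
  q.exists_val.choose_spec.2.2

theorem Whisk.val_eq (q : Whisk h X) {y : E.at X.obj (wt j i h)}
    (h0 : E.act X.obj (i0 h) y = q.a) (h1 : E.act X.obj (i1 h) y = q.b)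
    (h2 : E.act X.obj (i2 h) y = q.c) : y = q.val := by
  refine (X.property (wt j i h) (fun p => E.act X.obj (E.i.map (incl _ p)) y) fun p => ?_).unique
    (fun _ => rfl) fun p => ?_
  · rw [← E.act_comp, ← E.act_comp, ← E.i.map_comp, ← E.i.map_comp, side_incl_glue]
  · obtain ⟨k, hk⟩ := p
    rcases k with _ | _ | _ | k
    · exact q.act_i0.trans h0.symm
    · exact q.act_i1.trans h1.symm
    · exact q.act_i2.trans h2.symm
    · exact absurd hk (by show ¬ k + 3 < 2 + 1; omega)

/-- The image of whiskerable cells. -/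
def Whisk.map (f : X ⟶ Y) (q : Whisk h X) : Whisk h Y where
  a := E.appCell f.hom _ q.a
  b := E.appCell f.hom _ q.b
  c := E.appCell f.hom _ q.c
  hab := by rw [Ext.appCell, Ext.appCell, E.act_natural, E.act_natural, q.hab]
  hbc := by rw [Ext.appCell, Ext.appCell, E.act_natural, E.act_natural, q.hbc]

theorem Whisk.map_val (f : X ⟶ Y) (q : Whisk h X) : f.hom.app _ q.val = (q.map f).val := by
  refine (q.map f).val_eq ?_ ?_ ?_ <;> rw [E.act_natural]
  · rw [q.act_i0]; rfl
  · rw [q.act_i1]; rfl
  · rw [q.act_i2]; rfl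

theorem Whisk.ext' {q q' : Whisk h X} (ha : q.a = q'.a) (hb : q.b = q'.b) (hc : q.c = q'.c) :
    q = q' := by
  cases q; cases q'
  subst ha hb hc
  rfl

/-- The whiskering of a side of the middle cell. -/
def Whisk.side (e : Bool) (q : Whisk (h.trans i.lt_succ_self) X) : Whisk h X where
  a := q.a
  b := E.act X.obj (E.face e i) q.b
  c := q.c
  hab := by rw [← E.act_comp, sd_face, q.hab]
  hbc := by rw [← E.act_comp, sd_face, q.hbc]

theorem Whisk.act_shift (e : Bool) (q : Whisk (h.trans i.lt_succ_self) X) :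
    E.act X.obj (shift h e) q.val = (q.side e).val := by
  refine (q.side e).val_eq ?_ ?_ ?_ <;> rw [← E.act_comp]
  · rw [i0_shift, q.act_i0]; rfl
  · rw [i1_shift, E.act_comp, q.act_i1]; rfl
  · rw [i2_shift, q.act_i2]; rfl

/-- The whiskered cell. -/
def Whisk.out (W : WOp E j) (q : Whisk h X) : E.cells X.obj i := E.act X.obj (W.w i h) q.val

theorem Whisk.out_map (W : WOp E j) (f : X ⟶ Y) (q : Whisk h X) :
    E.appCell f.hom i (q.out W) = (q.map f).out W := by
  rw [Whisk.out, Whisk.out, Ext.appCell, ← E.act_natural, q.map_val]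

theorem Whisk.face_out (W : WOp E j) (e : Bool) (q : Whisk (h.trans i.lt_succ_self) X) :
    E.act X.obj (E.face e i) (q.out W) = (Whisk.side (h := h) e q).out W := by
  show E.act X.obj (E.face e i) (E.act X.obj (W.w (i + 1) _) q.val) = _
  rw [← E.act_comp, W.step i h e, E.act_comp, q.act_shift]
  rfl

theorem Whisk.face_out_base (W : WOp E j) (q : Whisk (i := j + 1) j.lt_succ_self X) :
    E.act X.obj (E.face false j) (q.out W) = E.act X.obj (E.face false j) q.a ∧
      E.act X.obj (E.face true j) (q.out W) = E.act X.obj (E.face true j) q.c := by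
  constructor <;> rw [Whisk.out, ← E.act_comp, W.base]
  · rw [outer, E.act_comp, q.act_i0]
  · rw [outer, E.act_comp, q.act_i2]

end

end Vale.Agent.P259.Pi
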