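import Vale.Agent.P259.Pi.InjectTop

/-!
# P259, Pi: cells with homotopic maps of pairs are linked
-/

namespace Vale.Agent.P259.Pi

open CategoryTheory Opposite
open P259.Complex
open scoped Topology unitInterval Classical

noncomputable section

variable {C : Coherator} {S : Simplices C.C} (J : Iota S.toSimpBase) {n : ℕ}

/-- **Injectivity**: cells with the same sides and homotopic maps of pairs are linked. -/
theorem linked_of_hom (hR : Spec.RepExists) (hZ' : Spec.RepCtrZig)
    (hB : ∀ T, WC (space S.toSimpBase T)) {Z X : C.C.Gpd} (r : Z ⟶ X)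
    (hZ : WC (S.toSimpBase.sys Z).Space)
    (b : Bool → C.C.cells Z.obj n) (hb : C.C.Par Z.obj (b false) (b true))
    (w : C(rim (n + 1), (S.toSimpBase.sys Z).Space))
    (hw : ∀ e v, ∀ h : hemi e n v ∈ rim (n + 1), w ⟨_, h⟩ = J.theta Z (b e) v)
    {a a' : C.C.cells X.obj (n + 1)}
    (hs : ∀ e, C.C.act X.obj (C.C.face e n) a = C.C.appCell r.hom n (b e))
    (hs' : ∀ e, C.C.act X.obj (C.C.face e n) a' = C.C.appCell r.hom n (b e))
    (ha : ∀ v : rim (n + 1), J.theta X a v.1 = S.toSimpBase.real r (w v))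
    (ha' : ∀ v : rim (n + 1), J.theta X a' v.1 = S.toSimpBase.real r (w v))
    (hom : (PMap.mk (J.theta X a) w ha).Hom (PMap.mk (J.theta X a') w ha')) :
    C.C.Linked X.obj a a' := by
  obtain ⟨g, hg⟩ := exists_pattern S C.C_contractible (n + 1)
  obtain ⟨bb, hbb⟩ := exists_dbl S hg (fun e => C.C.ofValue X (if e then a' else a)) (by
    intro e j h
    show C.C.yonMap (sd C.C e h) ≫ C.C.ofValue X a = C.C.yonMap (sd C.C e h) ≫ C.C.ofValue X a'
    rw [← ofValue_act, ← ofValue_act]
    congr 1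
    rcases (Nat.lt_succ_iff.1 h).lt_or_eq with hj | rfl
    · rw [← sd_face e false hj, C.C.act_comp, C.C.act_comp, hs, hs']
    · exact (hs e).trans (hs' e).symm)
  let lab : Fin (n + 1 + 1 + 1) → ℚ := fun x => (x.1 : ℚ)
  have hl : StrictMono lab := fun x y h => Nat.cast_lt.2 h
  obtain ⟨H, hH⟩ := extends_of_hom J hB r hZ hg b hb w hw hs hs' ha ha' hom bb hbb lab hl
  obtain ⟨N, G, l, hlc, hG⟩ := exists_extend bb lab hl H hH
  exact linked_of_extends hR hg (fun e => (hs' e).trans (hs e).symm) bb hbb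
    (fun i e => ctr_sides hR hZ' S (n + 1 + 1) N i e) G l hlc hG

end

end Vale.Agent.P259.Pi
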