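import Vale.Agent.P259.Pi.Sides
import Vale.Agent.P259.Pi.Carried

/-!
# P259, Pi: simplices in the representable discs, doubled boundary families
-/

namespace Vale.Agent.P259.Pi

open CategoryTheory Opposite
open scoped Classical

noncomputable section

variable {E : Ext} (S : Simplices E)

/-- Collapse of the first two vertices. -/
def collapse (N : ℕ) : Op (N + 1) N :=
  ⟨fun x => ⟨x.1 - 1, by omega⟩, fun x y h => by
    show x.1 - 1 ≤ y.1 - 1
    have : x.1 ≤ y.1 := h
    omega⟩

/-- The vertices of an operator. -/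
abbrev img {k N : ℕ} (δ : Op k N) : Finset (Fin (N + 1)) := Finset.univ.image δ

/-- A simplex of a disc lying over the sides. -/
def IsPattern {N : ℕ} (g : S.F N ⟶ E.yon (disc N)) : Prop :=
  ∀ i (h : i < N) (e : Bool) (k : ℕ) (δ : Op k N), Function.Injective δ →
    (sides N i e).mem (img δ) → ∃ x, S.map δ ≫ g = x ≫ E.yonMap (sd E e h)

theorem collapse_injective {k N : ℕ} {δ : Op k (N + 1)} (hδ : Function.Injective δ)
    (h0 : (0 : Fin (N + 2)) ∉ img δ) : Function.Injective ((collapse N).comp δ) := by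
  intro a b h
  have ha : (δ a).1 ≠ 0 := fun hv => h0 (Finset.mem_image.2 ⟨a, Finset.mem_univ a, Fin.ext hv⟩)
  have hb : (δ b).1 ≠ 0 := fun hv => h0 (Finset.mem_image.2 ⟨b, Finset.mem_univ b, Fin.ext hv⟩)
  have hv : (δ a).1 - 1 = (δ b).1 - 1 := congrArg Fin.val h
  exact hδ (Fin.ext (by omega))

theorem collapse_proper {k N : ℕ} {δ : Op k (N + 1)} (h0 : (0 : Fin (N + 2)) ∉ img δ)
    {p : Fin (N + 2)} (hp : p ≠ 0) (hpδ : p ∉ img δ) :
    img ((collapse N).comp δ) ≠ Finset.univ := by
  intro hu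
  obtain ⟨a, -, ha⟩ := Finset.mem_image.1
    (hu ▸ Finset.mem_univ (⟨p.1 - 1, by omega⟩ : Fin (N + 1)))
  have hda : (δ a).1 ≠ 0 := fun hv => h0 (Finset.mem_image.2 ⟨a, Finset.mem_univ a, Fin.ext hv⟩)
  have hp' : p.1 ≠ 0 := fun hv => hp (Fin.ext hv)
  have hv : (δ a).1 - 1 = p.1 - 1 := congrArg Fin.val ha
  exact hpδ (Finset.mem_image.2 ⟨a, Finset.mem_univ a, Fin.ext (by omega)⟩)

variable {S}

/-- Maps agreeing on the sides agree on the proper faces of a pattern. -/
theorem IsPattern.proper_eq {N : ℕ} {g : S.F N ⟶ E.yon (disc N)} (hg : IsPattern S g)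
    {X : E.Gpd} {f f' : E.yon (disc N) ⟶ X}
    (hf : ∀ e j (h : j < N), E.yonMap (sd E e h) ≫ f = E.yonMap (sd E e h) ≫ f')
    {k : ℕ} (δ : Op k N) (hδ : Function.Injective δ) (hp : img δ ≠ Finset.univ) :
    S.map δ ≫ g ≫ f = S.map δ ≫ g ≫ f' := by
  obtain _ | L := N
  · refine absurd (Finset.eq_univ_of_forall fun x => ?_) hp
    exact Finset.mem_image.2 ⟨0, Finset.mem_univ _, (Fin.fin_one_eq_zero _).trans (Fin.fin_one_eq_zero x).symm⟩
  · obtain ⟨e, he⟩ := proper_sides hp
    obtain ⟨x, hx⟩ := hg L L.lt_succ_self e k δ hδ he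
    rw [← Category.assoc, ← Category.assoc, hx, Category.assoc, Category.assoc, hf]

theorem sd_faces (N : ℕ) (e : Bool) (j : ℕ) (h : j < N) :
    E.yonMap (sd E e h) ≫ E.yonMap (E.face false N) =
      E.yonMap (sd E e h) ≫ E.yonMap (E.face true N) := by
  rw [← yonMap_comp, ← yonMap_comp, sd_face, sd_face]

/-- The side of a vertex set: the source if it avoids the first vertex. -/
def sideOf {k N : ℕ} (δ : Op k (N + 1)) : Bool :=
  if (0 : Fin (N + 2)) ∈ img δ then true else false

variable (S)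

/-- A boundary family doubled along the first edge. -/
theorem exists_dbl {N : ℕ} {g : S.F N ⟶ E.yon (disc N)} (hg : IsPattern S g) {X : E.Gpd}
    (f : Bool → (E.yon (disc N) ⟶ X))
    (hf : ∀ e j (h : j < N), E.yonMap (sd E e h) ≫ f false = E.yonMap (sd E e h) ≫ f true) :
    ∃ b : Fam (OCx.bdry (N + 1)) (S.toSimpBase.sys X),
      ∀ {k : ℕ} (v : (OCx.bdry (N + 1)).Simp k),
        b.app v = S.map ((collapse N).comp ⟨v.1, (v.2.1 : StrictMono v.1).monotone⟩) ≫ g ≫
          f (sideOf (⟨v.1, (v.2.1 : StrictMono v.1).monotone⟩ : Op k (N + 1))) := by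
  refine ⟨{ app := fun {k} v => S.map ((collapse N).comp ⟨v.1, (v.2.1 : StrictMono v.1).monotone⟩) ≫
              g ≫ f (sideOf (⟨v.1, (v.2.1 : StrictMono v.1).monotone⟩ : Op k (N + 1)))
            nat := fun {k j} v δ hδ => ?_ }, fun v => rfl⟩
  show S.map δ ≫ S.map _ ≫ g ≫ _ = S.map _ ≫ g ≫ _
  rw [← Category.assoc, S.map_face_op δ _ hδ]
  let u : Op k (N + 1) := ⟨v.1, (v.2.1 : StrictMono v.1).monotone⟩
  show S.map ((collapse N).comp (u.comp δ)) ≫ g ≫ f (sideOf u) =
    S.map ((collapse N).comp (u.comp δ)) ≫ g ≫ f (sideOf (u.comp δ))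
  have hsub : img (u.comp δ) ⊆ img u := fun x hx => by
    obtain ⟨a, -, rfl⟩ := Finset.mem_image.1 hx
    exact Finset.mem_image.2 ⟨δ a, Finset.mem_univ _, rfl⟩
  by_cases h0 : (0 : Fin (N + 2)) ∈ img (u.comp δ)
  · rw [show sideOf u = true from if_pos (hsub h0),
      show sideOf (u.comp δ) = true from if_pos h0]
  · rw [show sideOf (u.comp δ) = false from if_neg h0]
    by_cases h1 : (0 : Fin (N + 2)) ∈ img u
    · rw [show sideOf u = true from if_pos h1]
      have hp : img u ≠ Finset.univ := fun hu => v.2.2 (Set.eq_univ_of_forall fun x => by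
        obtain ⟨a, -, ha⟩ := Finset.mem_image.1 (hu ▸ Finset.mem_univ (α := Fin (N + 2)) x)
        exact ⟨a, ha⟩)
      obtain ⟨p, hp'⟩ : ∃ p, p ∉ img u := by
        by_contra hc
        exact hp (Finset.eq_univ_of_forall fun x => not_not.1 fun hx => hc ⟨x, hx⟩)
      exact (hg.proper_eq hf _
        (collapse_injective ((v.2.1 : StrictMono v.1).injective.comp hδ) h0)
        (collapse_proper h0 (p := p) (fun hp0 => hp' (by rw [hp0]; exact h1)) fun hm => hp' (hsub hm))).symm
    · rw [show sideOf u = false from if_neg h1]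

theorem exists_pattern (hE : E.Contractible) :
    ∀ N, ∃ g : S.F N ⟶ E.yon (disc N), IsPattern S g
  | 0 => by
    obtain ⟨g, -, -⟩ := S.zero_univ (E.yon (disc 0)) (𝟙 (E.i.obj (disc 0)))
    exact ⟨g, fun i h => absurd h (Nat.not_lt_zero i)⟩
  | N + 1 => by
    obtain ⟨g, hg⟩ := exists_pattern hE N
    obtain ⟨b, hb⟩ := exists_dbl S hg (fun e => E.yonMap (E.face e N)) (sd_faces N)
    obtain ⟨z, hz⟩ := (yonCtr E hE (disc (N + 1))).linked _ _ (S.par b)
    obtain ⟨g', ⟨-, hg'⟩, -⟩ := S.univ b z hz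
    refine ⟨g', fun i h e k δ hδ hmem => ?_⟩
    have hprop : img δ ≠ Finset.univ := sides_proper h e hmem
    have hval : S.map δ ≫ g' =
        S.map ((collapse N).comp δ) ≫ g ≫ E.yonMap (E.face (sideOf δ) N) := by
      let v : (OCx.bdry (N + 1)).Simp k := ⟨δ, δ.monotone.strictMono_of_injective hδ,
        fun hu => hprop (Finset.eq_univ_of_forall fun x => by
          obtain ⟨a, ha⟩ := Set.range_eq_univ.1 hu x
          exact Finset.mem_image.2 ⟨a, Finset.mem_univ _, ha⟩)⟩
      exact (congrArg (fun c : Fam _ _ => c.app v) hg').trans (hb v)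
    rcases (Nat.lt_succ_iff.1 h).lt_or_eq with hi | rfl
    · have hsub : img δ ⊆ fin (N + 1) (i + 1) := by
        cases e
        · exact hmem.trans (fin_mono i.le_succ)
        · exact hmem.1
      have h0 : (0 : Fin (N + 2)) ∉ img δ := sides_not_zero (show i + 1 < N + 1 by omega) hsub
      have hs : (sides N i e).mem (img ((collapse N).comp δ)) := by
        have hshift : ∀ {j : ℕ}, img δ ⊆ fin (N + 1) j → img ((collapse N).comp δ) ⊆ fin N j :=
          fun {j} hj x hx => by
            obtain ⟨a, -, rfl⟩ := Finset.mem_image.1 hx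
            have h1 := mem_fin.1 (hj (Finset.mem_image.2 ⟨a, Finset.mem_univ a, rfl⟩))
            refine mem_fin.2 ?_
            show N ≤ (δ a).1 - 1 + j
            omega
        cases e
        · exact hshift hmem
        · refine ⟨hshift hmem.1, fun hc => hmem.2 fun p hp => ?_⟩
          have h1 := mem_fin.1 hp
          obtain ⟨a, -, ha⟩ := Finset.mem_image.1
            (hc (show (⟨p.1 - 1, by omega⟩ : Fin (N + 1)) ∈ fin N i from
              mem_fin.2 (by show N ≤ p.1 - 1 + i; omega)))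
          have hda : (δ a).1 ≠ 0 := fun hv =>
            h0 (Finset.mem_image.2 ⟨a, Finset.mem_univ a, Fin.ext hv⟩)
          have hv : (δ a).1 - 1 = p.1 - 1 := congrArg Fin.val ha
          exact Finset.mem_image.2 ⟨a, Finset.mem_univ a, Fin.ext (by omega)⟩
      obtain ⟨x, hx⟩ := hg i hi e k _ (collapse_injective hδ h0) hs
      refine ⟨x, ?_⟩
      rw [hval, show sideOf δ = false from if_neg h0, ← Category.assoc, hx, Category.assoc,
        ← yonMap_comp, sd_face]
    · refine ⟨S.map ((collapse i).comp δ) ≫ g, ?_⟩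
      show S.map δ ≫ g' = (S.map ((collapse i).comp δ) ≫ g) ≫ E.yonMap (E.face e i)
      rw [hval, Category.assoc]
      by_cases h0 : (0 : Fin (i + 2)) ∈ img δ
      · rw [show sideOf δ = true from if_pos h0]
        cases e
        · exact absurd h0 (sides_not_zero h hmem)
        · rfl
      · rw [show sideOf δ = false from if_neg h0]
        cases e
        · rfl
        · obtain ⟨p, hp, hpδ⟩ := Finset.not_subset.1 hmem.2
          have hp0 : p ≠ 0 := fun hz => by
            have := mem_fin.1 hp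
            rw [hz, Fin.val_zero] at this
            omega
          exact hg.proper_eq (sd_faces i) _ (collapse_injective hδ h0) (collapse_proper h0 hp0 hpδ)

end

end Vale.Agent.P259.Pi
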