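import Vale.Agent.P259.Pi.SideModels
import Vale.Agent.P259.Pi.Pattern
import Vale.Agent.P259.Real.Extend

/-!
# P259, Pi: an extending boundary family gives a link

The algebraic half of injectivity.
-/

namespace Vale.Agent.P259.Pi

open CategoryTheory Opposite
open P259.Complex
open scoped Classical

noncomputable section

variable {E : Ext}

theorem exists_retr_sd (hE : E.Contractible) (e : Bool) (j : ℕ) :
    ∀ i (h : j < i), ∃ u : E.M (disc i) (disc j), sd E e h ≫ u = 𝟙 _
  | 0, h => absurd h (Nat.not_lt_zero j)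
  | i + 1, h => by
    by_cases hj : j = i
    · subst hj
      exact exists_retr hE e j
    · have hji : j < i := by omega
      obtain ⟨u, hu⟩ := exists_retr_sd hE e j i hji
      obtain ⟨v, hv⟩ := exists_retr hE false i
      refine ⟨v ≫ u, ?_⟩
      rw [show sd E e h = sd E e hji ≫ E.face false i from (sd_face e false hji).symm,
        Category.assoc, ← Category.assoc (E.face false i), hv, Category.id_comp, hu]

variable {C : Coherator} {S : Simplices C.C} {n : ℕ}

/-- The collapsed image of a face over a side lies over that side. -/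
theorem sides_collapse {k i N : ℕ} (hi : i < N) (e : Bool) {δ : Op k (N + 1)}
    (h : (sides (N + 1) i e).mem (img δ)) :
    (0 : Fin (N + 2)) ∉ img δ ∧ (sides N i e).mem (img ((collapse N).comp δ)) := by
  have hsub : img δ ⊆ fin (N + 1) (i + 1) := by
    cases e
    · exact h.trans (fin_mono i.le_succ)
    · exact h.1
  have h0 : (0 : Fin (N + 2)) ∉ img δ := sides_not_zero (show i + 1 < N + 1 by omega) hsub
  refine ⟨h0, ?_⟩
  have hshift : ∀ {j : ℕ}, img δ ⊆ fin (N + 1) j → img ((collapse N).comp δ) ⊆ fin N j :=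
    fun {j} hj x hx => by
      obtain ⟨a, -, rfl⟩ := Finset.mem_image.1 hx
      have h1 := mem_fin.1 (hj (Finset.mem_image.2 ⟨a, Finset.mem_univ a, rfl⟩))
      refine mem_fin.2 ?_
      show N ≤ (δ a).1 - 1 + j
      omega
  cases e
  · exact hshift h
  · refine ⟨hshift h.1, fun hc => h.2 fun p hp => ?_⟩
    have h1 := mem_fin.1 hp
    obtain ⟨a, -, ha⟩ := Finset.mem_image.1
      (hc (show (⟨p.1 - 1, by omega⟩ : Fin (N + 1)) ∈ fin N i from
        mem_fin.2 (by show N ≤ p.1 - 1 + i; omega)))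
    have hda : (δ a).1 ≠ 0 := fun hv =>
      h0 (Finset.mem_image.2 ⟨a, Finset.mem_univ a, Fin.ext hv⟩)
    have hv : (δ a).1 - 1 = p.1 - 1 := congrArg Fin.val ha
    exact Finset.mem_image.2 ⟨a, Finset.mem_univ a, Fin.ext (by omega)⟩

/-- A simplex of the boundary carrying the pulled back vertices of a chain. -/
theorem exists_pull_app {M : ℕ} {T : Subdivision M} (l : BdT T →o Fin (M + 1))
    (hlc : ∀ t, l t ∈ T.carrier t.1) {k : ℕ} (u : (OCx.chains (BdT T)).Simp k) :
    ∃ (j : ℕ) (w : (OCx.bdry M).Simp j) (c : Op k j),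
      img (⟨w.1, (w.2.1 : StrictMono w.1).monotone⟩ : Op j M) ⊆
          T.carrier (u.1 (Fin.last k)).1 ∧
        ∀ {X : C.C.Gpd} (b : Fam (OCx.bdry M) (S.toSimpBase.sys X)),
          (b.pull (Q' := OCx.chains (BdT T)) l (mapsInto_bdry l hlc)).app u = S.map c ≫ b.app w := by
  let s : Finset (Fin (M + 1)) := Finset.univ.image fun a => l (u.1 a)
  have hs : s ⊆ T.carrier (u.1 (Fin.last k)).1 := fun x hx => by
    obtain ⟨a, -, rfl⟩ := Finset.mem_image.1 hx
    exact T.carrier_mono ((show StrictMono u.1 from u.2).monotone (Fin.le_last a)) (hlc _)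
  have hs' : s ≠ Finset.univ := (Faces.proper M).down hs (u.1 (Fin.last k)).2
  have hne : s.Nonempty := ⟨l (u.1 0), Finset.mem_image.2 ⟨0, Finset.mem_univ _, rfl⟩⟩
  obtain ⟨j, w, hw⟩ := carries_bdry M s (fun h => hs' (Finset.coe_eq_univ.1 h)) hne
  have hw' : ∀ a, l (u.1 a) ∈ Set.range w.1 := fun a =>
    hw ▸ Finset.mem_coe.2 (Finset.mem_image_of_mem _ (Finset.mem_univ a))
  refine ⟨j, w, OCx.readOp (Q' := OCx.chains (BdT T)) (Q := OCx.bdry M) l u w hw',
    fun x hx => hs ?_, fun b => b.pull_app (Q' := OCx.chains (BdT T)) l _ u w _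
      (OCx.readOp_spec (Q' := OCx.chains (BdT T)) (Q := OCx.bdry M) l u w hw')⟩
  obtain ⟨a, -, ha⟩ := Finset.mem_image.1 hx
  have h : x ∈ Set.range w.1 := ⟨a, ha⟩
  rw [hw] at h
  exact Finset.mem_coe.1 h

/-- **An extending doubled family gives a link.** -/
theorem linked_of_extends (hR : Spec.RepExists) {X : C.C.Gpd}
    {g : S.F (n + 1) ⟶ C.C.yon (disc (n + 1))} (hg : IsPattern S g)
    {a a' : C.C.cells X.obj (n + 1)}
    (hs : ∀ e, C.C.act X.obj (C.C.face e n) a' = C.C.act X.obj (C.C.face e n) a)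
    (b : Fam (OCx.bdry (n + 1 + 1)) (S.toSimpBase.sys X))
    (hb : ∀ {k : ℕ} (v : (OCx.bdry (n + 1 + 1)).Simp k),
      b.app v = S.map ((collapse (n + 1)).comp ⟨v.1, (v.2.1 : StrictMono v.1).monotone⟩) ≫ g ≫
        C.C.ofValue X (if sideOf (⟨v.1, (v.2.1 : StrictMono v.1).monotone⟩ : Op k (n + 1 + 1))
          then a' else a))
    {T : Subdivision (n + 1 + 1)}
    (hctr : ∀ i e, C.C.Ctr (faceRep (S := S) hR T (sidesC (n + 1 + 1) i e)).G.obj)
    (G : Fam (OCx.chains T.T) (S.toSimpBase.sys X)) (l : BdT T →o Fin (n + 1 + 1 + 1))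
    (hlc : ∀ t, l t ∈ T.carrier t.1)
    (hG : ∀ {j : ℕ} (v : (OCx.chains (BdT T)).Simp j),
      G.app ⟨(Faces.proper (n + 1 + 1)).incl _ ∘ v.1,
        ((Faces.proper (n + 1 + 1)).incl _).strictMono.comp v.2⟩ =
          (b.pull (Q' := OCx.chains (BdT T)) l (mapsInto_bdry l hlc)).app v) :
    C.C.Linked X.obj a a' := by
  have hE : C.C.Contractible := C.C_contractible
  let M := n + 1 + 1
  let f : Bool → (C.C.yon (disc (n + 1)) ⟶ X) := fun e => C.C.ofValue X (if e then a' else a)
  have hf : ∀ e j (h : j < n + 1),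
      C.C.yonMap (sd C.C e h) ≫ f false = C.C.yonMap (sd C.C e h) ≫ f true := by
    intro e j h
    show C.C.yonMap (sd C.C e h) ≫ C.C.ofValue X a = C.C.yonMap (sd C.C e h) ≫ C.C.ofValue X a'
    rw [← ofValue_act, ← ofValue_act]
    congr 1
    rcases (Nat.lt_succ_iff.1 h).lt_or_eq with hj | rfl
    · rw [← sd_face e false hj, C.C.act_comp, C.C.act_comp, hs]
    · exact (hs e).symm
  obtain ⟨b1, hb1⟩ := exists_dbl S hg (fun _ => 𝟙 (C.C.yon (disc (n + 1)))) fun _ _ _ => rfl
  let K0 := b1.pull (Q' := OCx.chains (BdT T)) l (mapsInto_bdry l hlc)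
  let A := fun i e => sidesC M i e
  have hprop : ∀ i (_ : i ≤ n + 1) e s, (A i e).mem s → (Faces.proper M).mem s := fun i hi e s h => by
    have hlt : i < M := Nat.lt_succ_of_le hi
    rw [show A i e = sides M i e from sidesC_lt hlt e] at h
    exact sides_proper hlt e h
  let hm : ∀ i, i ≤ n + 1 → ∀ e, (faceRep (S := S) hR T (A i e)).G ⟶ C.C.yon (disc (n + 1)) :=
    fun i hi e => faceHom hR (restrSub (hprop i hi e) K0)
  obtain ⟨c⟩ := MTower.exists_fam (T := faceTower hR T) (n + 1 + 1) fun i _ e => hctr i e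
  let x : ∀ i, i ≤ n + 1 → Bool → C.C.M (disc i) (disc (n + 1)) := fun i hi e =>
    C.C.appCell (hm i hi e).hom i (c.c i (hi.trans (n + 1).le_succ) e)
  -- the images lie over the sides
  have hfix : ∀ i (hi : i ≤ n) (e : Bool) (u : C.C.M (disc (n + 1)) (disc i)),
      sd C.C e (Nat.lt_succ_of_le hi) ≫ u = 𝟙 _ →
      x i (hi.trans n.le_succ) e ≫ u ≫ sd C.C e (Nat.lt_succ_of_le hi) =
        x i (hi.trans n.le_succ) e := by
    intro i hi e u hu
    have hlt : i < n + 1 := Nat.lt_succ_of_le hi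
    have hk : hm i (hi.trans n.le_succ) e ≫ C.C.yonMap (u ≫ sd C.C e hlt) =
        hm i (hi.trans n.le_succ) e := by
      refine faceHom_ext hR fun k v => ?_
      have h1 : (faceRep (S := S) hR T (A i e)).fam.app v ≫ hm i (hi.trans n.le_succ) e =
          K0.app ⟨subIncl (hprop i (hi.trans n.le_succ) e) T ∘ v.1,
            (subIncl (hprop i (hi.trans n.le_succ) e) T).strictMono.comp v.2⟩ :=
        faceHom_app hR _ v
      refine (Category.assoc _ _ _).symm.trans
        ((congrArg (fun z => z ≫ C.C.yonMap (u ≫ sd C.C e hlt)) h1).trans (Eq.trans ?_ h1.symm))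
      obtain ⟨j, w, cop, hw, hpull⟩ := exists_pull_app (S := S) l hlc
        ⟨subIncl (hprop i (hi.trans n.le_succ) e) T ∘ v.1,
          (subIncl (hprop i (hi.trans n.le_succ) e) T).strictMono.comp v.2⟩
      have hside : (sides M i e).mem (T.carrier (v.1 (Fin.last k)).1) := by
        have := (v.1 (Fin.last k)).2
        rw [← sidesC_lt (show i < M by omega) e]
        exact this
      have hmem := (sides M i e).down hw hside
      obtain ⟨h0, hcol⟩ := sides_collapse hlt e hmem
      obtain ⟨y, hy⟩ := hg i hlt e j _ (collapse_injective (w.2.1 : StrictMono w.1).injective h0) hcol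
      have hb1w : b1.app w = y ≫ C.C.yonMap (sd C.C e hlt) :=
        (hb1 w).trans (((congrArg (fun z => S.map _ ≫ z) (Category.comp_id g))).trans hy)
      rw [show K0.app _ = _ from hpull b1, hb1w]
      show (S.map cop ≫ y ≫ C.C.yonMap (sd C.C e hlt)) ≫ C.C.yonMap (u ≫ sd C.C e hlt) =
        S.map cop ≫ y ≫ C.C.yonMap (sd C.C e hlt)
      rw [Category.assoc, Category.assoc, ← yonMap_comp, ← Category.assoc (sd C.C e hlt), hu,
        Category.id_comp]
    show x i (hi.trans n.le_succ) e ≫ u ≫ sd C.C e hlt = _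
    exact congrArg (fun h : (faceRep (S := S) hR T (A i e)).G ⟶ C.C.yon (disc (n + 1)) =>
      h.hom.app _ (c.c i ((hi.trans n.le_succ).trans (n + 1).le_succ) e)) hk
  choose u hu using fun i (h : i < n + 1) e => exists_retr_sd hE e i (n + 1) h
  let φc : ∀ i, i ≤ n → Bool → C.C.M (disc i) (disc i) := fun i hi e =>
    x i (hi.trans n.le_succ) e ≫ u i (Nat.lt_succ_of_le hi) e
  have hφ : ∀ i (hi : i ≤ n) e, φc i hi e ≫ sd C.C e (Nat.lt_succ_of_le hi) =
      x i (hi.trans n.le_succ) e := fun i hi e => by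
    rw [Category.assoc]
    exact hfix i hi e _ (hu i (Nat.lt_succ_of_le hi) e)
  have hnat : ∀ i (h : i + 1 ≤ n + 1) e' e,
      C.C.face e' i ≫ x (i + 1) h e = x i (i.le_succ.trans h) e' := by
    intro i h e' e
    refine (C.C.act_natural (hm (i + 1) h e).hom (C.C.face e' i) _).trans ?_
    refine (congrArg (fun z => (hm (i + 1) h e).hom.app _ z)
      (c.nat i (Nat.lt_succ_of_le (Nat.le_of_succ_le h)) e' e)).trans ?_
    have hc : (faceTower (S := S) hR T).up i e' e ≫ hm (i + 1) h e =
        hm i (i.le_succ.trans h) e' := by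
      show faceIncl hR T _ ≫ hm (i + 1) h e = hm i (i.le_succ.trans h) e'
      rw [faceIncl_comp, faceHom_spec]
      rfl
    exact congrArg (fun k : (faceTower (S := S) hR T).M i e' ⟶ C.C.yon (disc (n + 1)) =>
      k.hom.app _ (c.c i ((i.le_succ.trans h).trans (n + 1).le_succ) e')) hc
  let φ : (discTower C.C).Fam n :=
    { c := φc
      nat := fun i h e' e => by
        show C.C.face e' i ≫ φc (i + 1) h e = φc i h.le e' ≫ C.C.face e' i
        obtain ⟨v, hv⟩ := exists_retr_sd hE e (i + 1) (n + 1) (Nat.succ_lt_succ h)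
        have key : (C.C.face e' i ≫ φc (i + 1) h e) ≫ sd C.C e (Nat.succ_lt_succ h) =
            (φc i h.le e' ≫ C.C.face e' i) ≫ sd C.C e (Nat.succ_lt_succ h) := by
          rw [Category.assoc, hφ (i + 1) h, Category.assoc, hnat i (Nat.succ_le_succ h.le),
            show C.C.face e' i ≫ sd C.C e (Nat.succ_lt_succ h) =
              sd C.C e' (Nat.lt_succ_of_le h.le) from sd_sd e' e i.lt_succ_self _, hφ i h.le]
        have key' := congrArg (fun z => z ≫ v) key
        simpa only [Category.assoc, hv, Category.comp_id] using key' }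
  have hK : ∀ e0 e, C.C.face e n ≫ x (n + 1) le_rfl e0 = φ.c n le_rfl e ≫ C.C.face e n :=
    fun e0 e => (hnat n le_rfl e e0).trans (hφ n le_rfl e).symm
  refine linked_of_carried hE φ (x (n + 1) le_rfl false) (hK false) X hs ?_
  -- the two images of the families
  have hcomp : ∀ e, faceIncl (S := S) hR T (fun _ => sidesC_up M (n + 1) e false) ≫
      faceHom hR (restrSub (B := allFaces M) (fun _ _ => trivial)
        (⟨fun v => G.app ⟨fun p => (v.1 p).1, fun p q h => v.2 h⟩, fun v δ hδ => G.nat _ δ hδ⟩ :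
          Fam (OCx.chains ((allFaces M).Sub T)) (S.toSimpBase.sys X))) =
      hm (n + 1) le_rfl e ≫ f e := by
    intro e
    refine faceHom_ext hR fun k v => ?_
    rw [faceIncl_comp]
    refine (faceHom_app hR _ v).trans (Eq.trans ?_ ((congrArg (fun z => z ≫ f e)
      (faceHom_app hR (restrSub (hprop (n + 1) le_rfl e) K0) v)).symm.trans (Category.assoc _ _ _)))
    rw [faceHom_spec]
    let v' : (OCx.chains (BdT T)).Simp k := ⟨subIncl (hprop (n + 1) le_rfl e) T ∘ v.1,
      (subIncl (hprop (n + 1) le_rfl e) T).strictMono.comp v.2⟩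
    show G.app _ = K0.app v' ≫ f e
    refine (hG v').trans ?_
    obtain ⟨j, w, cop, hw, hpull⟩ := exists_pull_app (S := S) l hlc v'
    rw [hpull b, show K0.app v' = _ from hpull b1, hb w, hb1 w]
    have hside : (sides M (n + 1) e).mem (T.carrier (v.1 (Fin.last k)).1) := by
      have := (v.1 (Fin.last k)).2
      rw [← sidesC_lt (show n + 1 < M by omega) e]
      exact this
    have hmem := (sides M (n + 1) e).down hw hside
    let wo : Op j (n + 1 + 1) := ⟨w.1, (w.2.1 : StrictMono w.1).monotone⟩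
    show S.map cop ≫ S.map ((collapse (n + 1)).comp wo) ≫ g ≫ f (sideOf wo) =
      (S.map cop ≫ S.map ((collapse (n + 1)).comp wo) ≫ g ≫ 𝟙 _) ≫ f e
    rw [Category.comp_id]
    simp only [Category.assoc]
    refine congrArg (fun z => S.map cop ≫ z) ?_
    cases e
    · rw [show sideOf wo = false from if_neg (sides_not_zero (show n + 1 < M by omega) hmem)]
    · by_cases h0 : (0 : Fin (n + 1 + 1 + 1)) ∈ img wo
      · rw [show sideOf wo = true from if_pos h0]
      · rw [show sideOf wo = false from if_neg h0]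
        obtain ⟨p, hp, hpw⟩ := Finset.not_subset.1 hmem.2
        exact hg.proper_eq hf _ (collapse_injective (w.2.1 : StrictMono w.1).injective h0)
          (collapse_proper h0 (fun hz => sides_not_zero (show n + 1 < M by omega) subset_rfl
            (hz ▸ hp)) hpw)
  have hlink : C.C.Linked X.obj (C.C.act X.obj (x (n + 1) le_rfl false) a)
      (C.C.act X.obj (x (n + 1) le_rfl true) a') := by
    refine ⟨C.C.appCell (faceHom hR (restrSub (B := allFaces M) (A := A (n + 1 + 1) false)
        (fun _ _ => trivial)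
        (⟨fun v => G.app ⟨fun p => (v.1 p).1, fun p q h => v.2 h⟩, fun v δ hδ => G.nat _ δ hδ⟩ :
          Fam (OCx.chains ((allFaces M).Sub T)) (S.toSimpBase.sys X)))).hom (n + 1 + 1)
      (c.c (n + 1 + 1) le_rfl false), ?_, ?_⟩
    · refine (C.C.act_natural _ _ _).trans ((congrArg (fun z => (faceHom hR _).hom.app _ z)
        (c.nat (n + 1) (n + 1).lt_succ_self false false)).trans ?_)
      exact congrArg (fun k : (faceTower (S := S) hR T).M (n + 1) false ⟶ X =>
        k.hom.app _ (c.c (n + 1) (n + 1).le_succ false)) (hcomp false)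
    · refine (C.C.act_natural _ _ _).trans ((congrArg (fun z => (faceHom hR _).hom.app _ z)
        (c.nat (n + 1) (n + 1).lt_succ_self true false)).trans ?_)
      exact congrArg (fun k : (faceTower (S := S) hR T).M (n + 1) true ⟶ X =>
        k.hom.app _ (c.c (n + 1) (n + 1).le_succ true)) (hcomp true)
  have hlink' : C.C.Linked X.obj (C.C.act X.obj (x (n + 1) le_rfl true) a')
      (C.C.act X.obj (x (n + 1) le_rfl false) a') := by
    obtain ⟨L, h0, h1⟩ := (yonCtr C.C hE (disc (n + 1))).linked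
      (x (n + 1) le_rfl true) (x (n + 1) le_rfl false) fun e => (hK true e).trans (hK false e).symm
    exact ⟨C.C.act X.obj L a', (C.C.act_comp X.obj _ _ a').symm.trans
        (congrArg (fun z => C.C.act X.obj z a') h0),
      (C.C.act_comp X.obj _ _ a').symm.trans (congrArg (fun z => C.C.act X.obj z a') h1)⟩
  exact C.C.linked_trans hE X hlink hlink'

end

end Vale.Agent.P259.Pi
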