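import Vale.Agent.P259.Pi.Glue

/-!
# P259, Pi: carried families of cells and the change of sides by whiskering
-/

namespace Vale.Agent.P259.Pi

open CategoryTheory Opposite

noncomputable section

/-- Models indexed by the sides of a disc. -/
structure MTower (E : Ext) : Type 1 where
  M : ℕ → Bool → E.Gpd
  up : ∀ i (e' e : Bool), M i e' ⟶ M (i + 1) e
  square : ∀ i (e'' e : Bool),
    up i e'' false ≫ up (i + 1) false e = up i e'' true ≫ up (i + 1) true e

namespace MTower

variable {E : Ext} (T : MTower E)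

/-- The map from a side into a higher one. -/
def push (j : ℕ) (e0 : Bool) : ∀ i, j < i → ∀ e, T.M j e0 ⟶ T.M i e
  | 0, h => absurd h (Nat.not_lt_zero j)
  | i + 1, h => fun e =>
    if hi : j = i then eqToHom (congrArg (fun k => T.M k e0) hi) ≫ T.up i e0 e
    else push j e0 i (by omega) false ≫ T.up i false e

theorem push_base (j : ℕ) (e0 e : Bool) (h : j < j + 1) :
    T.push j e0 (j + 1) h e = T.up j e0 e := by
  rw [push]
  exact (dif_pos rfl).trans (Category.id_comp _)

theorem push_succ {j i : ℕ} (e0 e : Bool) (h : j < i) (h' : j < i + 1) :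
    T.push j e0 (i + 1) h' e = T.push j e0 i h false ≫ T.up i false e := by
  rw [push]
  exact dif_neg h.ne

theorem push_up {j i : ℕ} (e0 e' e : Bool) (h : j < i) (h' : j < i + 1) :
    T.push j e0 i h e' ≫ T.up i e' e = T.push j e0 (i + 1) h' e := by
  rw [T.push_succ e0 e h h']
  obtain _ | k := i
  · omega
  cases e'
  · rfl
  by_cases hj : j = k
  · subst hj
    rw [T.push_base, T.push_base, T.square]
  · rw [T.push_succ e0 true (show j < k by omega) h, T.push_succ e0 false (show j < k by omega) h,
      Category.assoc, Category.assoc, T.square]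

/-- Cells carried by a tower, up to the dimension `n`. -/
structure Fam (n : ℕ) : Type where
  c : ∀ i, i ≤ n → ∀ e, E.cells (T.M i e).obj i
  nat : ∀ i (h : i < n) (e' e : Bool),
    E.act (T.M (i + 1) e).obj (E.face e' i) (c (i + 1) h e) =
      E.appCell (T.up i e' e).hom i (c i h.le e')

variable {T} {n : ℕ}

theorem Fam.c_side (φ : T.Fam n) (e0 : Bool) {j i : ℕ} (h : j < i) (hi : i ≤ n) (e : Bool) :
    E.act (T.M i e).obj (sd E e0 h) (φ.c i hi e) =
      E.appCell (T.push j e0 i h e).hom j (φ.c j (h.le.trans hi) e0) := by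
  induction i generalizing e with
  | zero => omega
  | succ k ih =>
    by_cases hj : j = k
    · subst hj
      rw [T.push_base]
      exact φ.nat j hi e0 e
    · have hk : j < k := by omega
      rw [← sd_face e0 false hk, E.act_comp, φ.nat k hi, Ext.appCell, E.act_natural,
        ih hk (by omega), T.push_succ e0 e hk h]
      rfl

variable (T)

/-- Maps of the last level of a tower into a model. -/
structure Over (n : ℕ) (X : E.Gpd) : Type where
  r : ∀ e, T.M n e ⟶ X
  compat : ∀ j e0 (h : j < n), T.push j e0 n h false ≫ r false = T.push j e0 n h true ≫ r true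

variable {T} {X Y : E.Gpd}

/-- The map into the model from any level. -/
def Over.pr (R : T.Over n X) (j : ℕ) (e0 : Bool) (h : j ≤ n) : T.M j e0 ⟶ X :=
  if hj : j = n then eqToHom (congrArg (fun k => T.M k e0) hj) ≫ R.r e0
  else T.push j e0 n (by omega) false ≫ R.r false

theorem Over.pr_self (R : T.Over n X) (e0 : Bool) (h : n ≤ n) : R.pr n e0 h = R.r e0 := by
  rw [Over.pr, dif_pos rfl, eqToHom_refl, Category.id_comp]

theorem Over.pr_lt (R : T.Over n X) {j : ℕ} (e0 e : Bool) (h : j < n) (h' : j ≤ n) :
    R.pr j e0 h' = T.push j e0 n h e ≫ R.r e := by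
  rw [Over.pr, dif_neg h.ne]
  cases e
  · rfl
  · exact R.compat j e0 h

/-- Postcomposition. -/
def Over.map (R : T.Over n X) (f : X ⟶ Y) : T.Over n Y where
  r e := R.r e ≫ f
  compat j e0 h := by rw [← Category.assoc, R.compat j e0 h, Category.assoc]

theorem Over.map_pr (R : T.Over n X) (f : X ⟶ Y) (j : ℕ) (e0 : Bool) (h : j ≤ n) :
    (R.map f).pr j e0 h = R.pr j e0 h ≫ f := by
  rcases h.lt_or_eq with hlt | rfl
  · rw [(R.map f).pr_lt e0 false hlt h, R.pr_lt e0 false hlt h, Category.assoc]
    rfl
  · rw [Over.pr_self, Over.pr_self]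
    rfl

/-- A cell with the sides given by a family. -/
def Over.Top (R : T.Over n X) (φ : T.Fam n) (K : E.cells X.obj (n + 1)) : Prop :=
  ∀ e, E.act X.obj (E.face e n) K = E.appCell (R.r e).hom n (φ.c n le_rfl e)

theorem Over.top_side (R : T.Over n X) {φ : T.Fam n} {K : E.cells X.obj (n + 1)}
    (hK : R.Top φ K) (e0 : Bool) {j : ℕ} (h : j < n + 1) :
    E.act X.obj (sd E e0 h) K =
      E.appCell (R.pr j e0 (Nat.lt_succ_iff.1 h)).hom j (φ.c j (Nat.lt_succ_iff.1 h) e0) := by
  rcases (Nat.lt_succ_iff.1 h).lt_or_eq with hlt | rfl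
  · rw [← sd_face e0 false hlt, E.act_comp, hK, Ext.appCell, E.act_natural, φ.c_side e0 hlt,
      R.pr_lt e0 false hlt]
    rfl
  · rw [R.pr_self]
    exact hK e0

/-- The data of one change of sides: cells between the sides of dimension `j`. -/
structure Step (φ ψ : T.Fam n) (j : ℕ) : Type where
  le : j ≤ n
  agree : ∀ i (h : i < j) e, φ.c i (h.le.trans le) e = ψ.c i (h.le.trans le) e
  l : ∀ e, E.cells (T.M j e).obj (j + 1)
  left_src : E.act (T.M j false).obj (E.face false j) (l false) = ψ.c j le false
  left_tgt : E.act (T.M j false).obj (E.face true j) (l false) = φ.c j le false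
  right_src : E.act (T.M j true).obj (E.face false j) (l true) = φ.c j le true
  right_tgt : E.act (T.M j true).obj (E.face true j) (l true) = ψ.c j le true

theorem exists_step {j : ℕ} (hT : ∀ e, E.Ctr (T.M j e).obj) (φ ψ : T.Fam n) (hj : j ≤ n)
    (ha : ∀ i (h : i < j) e, φ.c i (h.le.trans hj) e = ψ.c i (h.le.trans hj) e) :
    Nonempty (Step φ ψ j) := by
  have hp : ∀ e, E.Par (T.M j e).obj (φ.c j hj e) (ψ.c j hj e) ∧
      E.Par (T.M j e).obj (ψ.c j hj e) (φ.c j hj e) := by
    cases j with
    | zero => exact fun _ => ⟨trivial, trivial⟩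
    | succ L =>
      have h : ∀ e e', E.act (T.M (L + 1) e).obj (E.face e' L) (φ.c (L + 1) hj e) =
          E.act (T.M (L + 1) e).obj (E.face e' L) (ψ.c (L + 1) hj e) := fun e e' => by
        rw [φ.nat L hj, ψ.nat L hj, ha L L.lt_succ_self]
      exact fun e => ⟨h e, fun e' => (h e e').symm⟩
  obtain ⟨l0, h0⟩ := (hT false).linked _ _ (hp false).2
  obtain ⟨l1, h1⟩ := (hT true).linked _ _ (hp true).1
  exact ⟨⟨hj, ha, fun e => match e with
    | false => l0
    | true => l1, h0.1, h0.2, h1.1, h1.2⟩⟩

namespace Step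

variable {φ ψ : T.Fam n} {j : ℕ} (d : Step φ ψ j)

/-- The whiskered sides. -/
def whisk {i : ℕ} (h : j < i) (hi : i ≤ n) (e : Bool) : Whisk h (T.M i e) where
  a := E.appCell (T.push j false i h e).hom _ (d.l false)
  b := φ.c i hi e
  c := E.appCell (T.push j true i h e).hom _ (d.l true)
  hab := by rw [Ext.appCell, E.act_natural, d.left_tgt, φ.c_side false h hi]
  hbc := by rw [Ext.appCell, E.act_natural, d.right_src, φ.c_side true h hi]

/-- The new family. -/
def fam (W : WOp E j) : T.Fam n where
  c i hi e := if h : j < i then (d.whisk h hi e).out W else ψ.c i hi e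
  nat i h e' e := by
    by_cases hji : j < i
    · rw [dif_pos hji, dif_pos (hji.trans i.lt_succ_self), Whisk.face_out (h := hji),
        Whisk.out_map]
      refine congrArg (Whisk.out W) (Whisk.ext' ?_ (φ.nat i h e' e) ?_)
      · show (T.push j false (i + 1) _ e).hom.app _ (d.l false) =
          (T.up i e' e).hom.app _ ((T.push j false i hji e').hom.app _ (d.l false))
        rw [← T.push_up false e' e hji]
        rfl
      · show (T.push j true (i + 1) _ e).hom.app _ (d.l true) =
          (T.up i e' e).hom.app _ ((T.push j true i hji e').hom.app _ (d.l true))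
        rw [← T.push_up true e' e hji]
        rfl
    · rw [dif_neg hji]
      by_cases hji' : j < i + 1
      · obtain rfl : i = j := by omega
        rw [dif_pos hji']
        cases e'
        · rw [(Whisk.face_out_base W (d.whisk hji' h e)).1]
          show E.act _ _ ((T.push i false (i + 1) hji' e).hom.app _ (d.l false)) = _
          rw [E.act_natural, d.left_src, T.push_base]
        · rw [(Whisk.face_out_base W (d.whisk hji' h e)).2]
          show E.act _ _ ((T.push i true (i + 1) hji' e).hom.app _ (d.l true)) = _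
          rw [E.act_natural, d.right_tgt, T.push_base]
      · rw [dif_neg hji']
        exact ψ.nat i h e' e

theorem fam_agree (W : WOp E j) {i : ℕ} (h : i ≤ j) (e : Bool) :
    (d.fam W).c i (h.trans d.le) e = ψ.c i (h.trans d.le) e :=
  dif_neg (by omega)

variable (R : T.Over n X)

/-- The whiskered cell over the sides. -/
def topWhisk {K : E.cells X.obj (n + 1)} (hK : R.Top φ K) :
    Whisk (Nat.lt_succ_of_le d.le) X where
  a := E.appCell (R.pr j false d.le).hom _ (d.l false)
  b := K
  c := E.appCell (R.pr j true d.le).hom _ (d.l true)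
  hab := by rw [Ext.appCell, E.act_natural, d.left_tgt, R.top_side hK]
  hbc := by rw [Ext.appCell, E.act_natural, d.right_src, R.top_side hK]

/-- The changed cell. -/
def out (W : WOp E j) {K : E.cells X.obj (n + 1)} (hK : R.Top φ K) : E.cells X.obj (n + 1) :=
  (d.topWhisk R hK).out W

theorem out_top (W : WOp E j) {K : E.cells X.obj (n + 1)} (hK : R.Top φ K) :
    R.Top (d.fam W) (d.out R W hK) := by
  intro e
  rcases d.le.lt_or_eq with hj | hj
  · rw [out, Whisk.face_out (h := hj),
      show (d.fam W).c n le_rfl e = (d.whisk hj le_rfl e).out W from dif_pos hj, Whisk.out_map]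
    refine congrArg (Whisk.out W) (Whisk.ext' ?_ (hK e) ?_)
    · show (R.pr j false d.le).hom.app _ (d.l false) =
        (R.r e).hom.app _ ((T.push j false n hj e).hom.app _ (d.l false))
      rw [R.pr_lt false e hj]
      rfl
    · show (R.pr j true d.le).hom.app _ (d.l true) =
        (R.r e).hom.app _ ((T.push j true n hj e).hom.app _ (d.l true))
      rw [R.pr_lt true e hj]
      rfl
  · subst hj
    rw [show (d.fam W).c j le_rfl e = ψ.c j le_rfl e from dif_neg (lt_irrefl j), out]
    cases e
    · rw [(Whisk.face_out_base W _).1]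
      show E.act _ _ ((R.pr j false _).hom.app _ (d.l false)) = _
      rw [E.act_natural, d.left_src, R.pr_self]
    · rw [(Whisk.face_out_base W _).2]
      show E.act _ _ ((R.pr j true _).hom.app _ (d.l true)) = _
      rw [E.act_natural, d.right_tgt, R.pr_self]

theorem out_map (W : WOp E j) (f : X ⟶ Y) {K : E.cells X.obj (n + 1)} (hK : R.Top φ K)
    (hK' : (R.map f).Top φ (E.appCell f.hom _ K)) :
    E.appCell f.hom _ (d.out R W hK) = d.out (R.map f) W hK' := by
  rw [out, out, Whisk.out_map]
  refine congrArg (Whisk.out W) (Whisk.ext' ?_ rfl ?_)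
  · show (R.pr j false d.le ≫ f).hom.app _ (d.l false) =
      ((R.map f).pr j false d.le).hom.app _ (d.l false)
    rw [R.map_pr]
  · show (R.pr j true d.le ≫ f).hom.app _ (d.l true) =
      ((R.map f).pr j true d.le).hom.app _ (d.l true)
    rw [R.map_pr]

theorem out_linked (W : WOp E j) {K K' : E.cells X.obj (n + 1)} (hK : R.Top φ K)
    (hK' : R.Top φ K') (h : E.Linked X.obj K K') :
    E.Linked X.obj (d.out R W hK) (d.out R W hK') := by
  obtain ⟨L, h0, h1⟩ := h
  have hj : j < n + 1 := Nat.lt_succ_of_le d.le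
  have hsd : ∀ e0, E.act X.obj (sd E e0 (hj.trans (n + 1).lt_succ_self)) L =
      E.act X.obj (sd E e0 hj) K := fun e0 => by
    rw [← sd_face e0 false hj, E.act_comp, h0]
  let q : Whisk (hj.trans (n + 1).lt_succ_self) X :=
    { a := (d.topWhisk R hK).a
      b := L
      c := (d.topWhisk R hK).c
      hab := by rw [hsd, (d.topWhisk R hK).hab]; rfl
      hbc := by rw [hsd, ← (d.topWhisk R hK).hbc]; rfl }
  refine ⟨q.out W, ?_, ?_⟩ <;> rw [Whisk.face_out (h := hj)] <;>
    exact congrArg (Whisk.out W) (Whisk.ext' rfl ‹_› rfl)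

end Step

/-- An operation changing the sides of cells from one family to another. -/
structure Change (φ ψ : T.Fam n) : Type 1 where
  op : ∀ {X : E.Gpd} (R : T.Over n X) {K : E.cells X.obj (n + 1)}, R.Top φ K →
    E.cells X.obj (n + 1)
  top : ∀ {X : E.Gpd} (R : T.Over n X) {K : E.cells X.obj (n + 1)} (hK : R.Top φ K),
    R.Top ψ (op R hK)
  map : ∀ {X Y : E.Gpd} (R : T.Over n X) (f : X ⟶ Y) {K : E.cells X.obj (n + 1)}
    (hK : R.Top φ K) (hK' : (R.map f).Top φ (E.appCell f.hom _ K)),
    E.appCell f.hom _ (op R hK) = op (R.map f) hK'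
  linked : ∀ {X : E.Gpd} (R : T.Over n X) {K K' : E.cells X.obj (n + 1)} (hK : R.Top φ K)
    (hK' : R.Top φ K'), E.Linked X.obj K K' → E.Linked X.obj (op R hK) (op R hK')

theorem Over.map_top (R : T.Over n X) (f : X ⟶ Y) {φ : T.Fam n} {K : E.cells X.obj (n + 1)}
    (hK : R.Top φ K) : (R.map f).Top φ (E.appCell f.hom _ K) := fun e => by
  rw [Ext.appCell, E.act_natural, hK e]
  rfl

theorem Fam.ext' {φ ψ : T.Fam n} (h : ∀ i hi e, φ.c i hi e = ψ.c i hi e) : φ = ψ := by
  cases φ; cases ψ
  congr
  funext i hi e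
  exact h i hi e

/-- Any two carried families are joined by a change of sides. -/
theorem exists_change (hE : E.Contractible) (hT : ∀ i, i ≤ n → ∀ e, E.Ctr (T.M i e).obj)
    (φ ψ : T.Fam n) : Nonempty (Change φ ψ) := by
  suffices h : ∀ j, j ≤ n + 1 → ∃ φ' : T.Fam n,
      (∀ i hi e, i < j → φ'.c i hi e = ψ.c i hi e) ∧ Nonempty (Change φ φ') by
    obtain ⟨φ', ha, hc⟩ := h (n + 1) le_rfl
    obtain rfl : φ' = ψ := Fam.ext' fun i hi e => ha i hi e (Nat.lt_succ_of_le hi)
    exact hc
  intro j
  induction j with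
  | zero =>
    exact fun _ => ⟨φ, fun i hi e h => absurd h (Nat.not_lt_zero i),
      ⟨⟨fun {_} _ {K} _ => K, fun {_} _ {_} h => h, fun {_ _} _ _ {_} _ _ => rfl,
        fun {_} _ {_ _} _ _ h => h⟩⟩⟩
  | succ j ih =>
    intro hj
    obtain ⟨φ', ha, ⟨c⟩⟩ := ih (by omega)
    obtain ⟨W⟩ := exists_wop hE j
    obtain ⟨d⟩ := exists_step (hT j (by omega)) φ' ψ (by omega) fun i h e => ha i _ e h
    refine ⟨d.fam W, fun i hi e h => d.fam_agree W (Nat.lt_succ_iff.1 h) e, ⟨?_⟩⟩
    exact
      { op := fun {_} R {_} hK => d.out R W (c.top R hK)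
        top := fun {_} R {_} hK => d.out_top R W (c.top R hK)
        map := fun {_ _} R f {_} hK hK' => by
          rw [d.out_map R W f (c.top R hK) (R.map_top f (c.top R hK))]
          congr 1
          exact c.map R f hK hK'
        linked := fun {_} R {_ _} hK hK' h => d.out_linked R W _ _ (c.linked R hK hK' h) }

end MTower

end

end Vale.Agent.P259.Pi
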