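import Vale.Agent.P259.Pi.Ball
import Vale.Agent.P259.Pi.Whisker
import Vale.Agent.P259.Pi.Iota

/-!
# P259, Pi: maps of discs carried by weakly contractible spaces are homotopic
-/

namespace Vale.Agent.P259.Pi

open CategoryTheory
open scoped Topology unitInterval

noncomputable section

/-- Weakly contractible spaces indexed by the sides of a disc. -/
structure Tower : Type 1 where
  A : ℕ → Bool → Type
  [top : ∀ i e, TopologicalSpace (A i e)]
  wc : ∀ i e, WC (A i e)
  up : ∀ (i : ℕ) (e' e : Bool), C(A i e', A (i + 1) e)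
  square : ∀ (i : ℕ) (e'' e : Bool) (x : A i e''),
    up (i + 1) false e (up i e'' false x) = up (i + 1) true e (up i e'' true x)

attribute [instance] Tower.top

variable (T : Tower)

/-- A family of maps of discs carried by a tower, up to the level `N`. -/
structure Tower.Fam (N : ℕ) : Type where
  f : ∀ i e, C(Ball i, T.A i e)
  nat : ∀ i, i < N → ∀ e' e, (f (i + 1) e).comp (hemi e' i) = (T.up i e' e).comp (f i e')

variable {T} {N : ℕ}

/-- Carried families are homotopic by carried homotopies. -/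
theorem Tower.Fam.exists_homotopy (φ ψ : T.Fam N) :
    ∃ H : ∀ i e, C(Ball i × I, T.A i e),
      (∀ i e v, i ≤ N → H i e (v, 0) = φ.f i e v) ∧
      (∀ i e v, i ≤ N → H i e (v, 1) = ψ.f i e v) ∧
      ∀ i, i < N → ∀ e' e v t, H (i + 1) e (hemi e' i v, t) = T.up i e' e (H i e' (v, t)) := by
  suffices h : ∀ M, M ≤ N → ∃ H : ∀ i e, C(Ball i × I, T.A i e),
      (∀ i e v, i ≤ M → H i e (v, 0) = φ.f i e v) ∧
      (∀ i e v, i ≤ M → H i e (v, 1) = ψ.f i e v) ∧
      ∀ i, i < M → ∀ e' e v t, H (i + 1) e (hemi e' i v, t) = T.up i e' e (H i e' (v, t)) from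
    h N le_rfl
  intro M
  induction M with
  | zero =>
    intro _
    have hempty : IsEmpty (rim 0) := ⟨fun v => by simpa [Ball.rim_zero] using v.2⟩
    have : ∀ e, ∃ G : C(Ball 0 × I, T.A 0 e), (∀ v, G (v, 0) = φ.f 0 e v) ∧
        ∀ v, G (v, 1) = ψ.f 0 e v := fun e => by
      obtain ⟨G, h0, h1, -⟩ := (T.wc 0 e).exists_homotopy (φ.f 0 e) (ψ.f 0 e)
        ⟨fun v => hempty.elim v.1, continuous_of_discreteTopology⟩
        (fun v => hempty.elim v) (fun v => hempty.elim v)
      exact ⟨G, h0, h1⟩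
    choose G hG0 hG1 using this
    have hne : ∀ i e, Nonempty (T.A i e) := fun i e => (T.wc i e).nonempty
    let H : ∀ i e, C(Ball i × I, T.A i e) := fun i e => match i with
      | 0 => G e
      | j + 1 => ContinuousMap.const _ (hne (j + 1) e).some
    refine ⟨H, ?_, ?_, fun i hi => absurd hi (Nat.not_lt_zero i)⟩ <;>
      intro i e v hi <;> obtain rfl := Nat.le_zero.1 hi
    · exact hG0 e v
    · exact hG1 e v
  | succ M ih =>
    intro hM
    obtain ⟨H, h0, h1, hn⟩ := ih (Nat.le_of_succ_le hM)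
    have hMN : M < N := hM
    have hside : ∀ (e : Bool) (e' : Bool) (χ : T.Fam N) (v : Ball M),
        χ.f (M + 1) e (hemi e' M v) = T.up M e' e (χ.f M e' v) :=
      fun e e' χ v => DFunLike.congr_fun (χ.nat M hMN e' e) v
    have step : ∀ e, ∃ G : C(Ball (M + 1) × I, T.A (M + 1) e),
        (∀ v, G (v, 0) = φ.f (M + 1) e v) ∧ (∀ v, G (v, 1) = ψ.f (M + 1) e v) ∧
        ∀ e' v t, G (hemi e' M v, t) = T.up M e' e (H M e' (v, t)) := by
      intro e
      obtain ⟨c, hc⟩ := Ball.exists_glue (K := I)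
        (fun e' => (T.up M e' e).comp (H M e')) (fun v hv t => by
          cases M with
          | zero => exact absurd hv (by simp [Ball.rim_zero])
          | succ L =>
            obtain ⟨e'', u, rfl⟩ := Ball.exists_hemi hv
            show T.up (L + 1) false e (H (L + 1) false (hemi e'' L u, t)) =
              T.up (L + 1) true e (H (L + 1) true (hemi e'' L u, t))
            rw [hn L L.lt_succ_self, hn L L.lt_succ_self, T.square])
      obtain ⟨G, g0, g1, gb⟩ := (T.wc (M + 1) e).exists_homotopy (φ.f (M + 1) e) (ψ.f (M + 1) e) c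
        (by
          rintro ⟨w, hw⟩
          obtain ⟨e', v, rfl⟩ := Ball.exists_hemi hw
          rw [hc, ContinuousMap.comp_apply, h0 M e' v le_rfl, hside e e' φ v])
        (by
          rintro ⟨w, hw⟩
          obtain ⟨e', v, rfl⟩ := Ball.exists_hemi hw
          rw [hc, ContinuousMap.comp_apply, h1 M e' v le_rfl, hside e e' ψ v])
      exact ⟨G, g0, g1, fun e' v t => (gb ⟨_, Ball.hemi_mem_rim e' v⟩ t).trans (hc e' v t)⟩
    choose G hG0 hG1 hGn using step
    let H' : ∀ i e, C(Ball i × I, T.A i e) := fun i e =>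
      if h : i = M + 1 then h ▸ G e else H i e
    have hnew : ∀ e, H' (M + 1) e = G e := fun e => by simp [H']
    have hold : ∀ i e, i ≠ M + 1 → H' i e = H i e := fun i e hi => by simp [H', hi]
    refine ⟨H', fun i e v hi => ?_, fun i e v hi => ?_, fun i hi e' e v t => ?_⟩
    · rcases Nat.lt_or_eq_of_le hi with h | rfl
      · rw [hold i e h.ne, h0 i e v (Nat.lt_succ_iff.1 h)]
      · rw [hnew, hG0]
    · rcases Nat.lt_or_eq_of_le hi with h | rfl
      · rw [hold i e h.ne, h1 i e v (Nat.lt_succ_iff.1 h)]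
      · rw [hnew, hG1]
    · rcases Nat.lt_or_eq_of_le (Nat.lt_succ_iff.1 hi) with h | rfl
      · rw [hold (i + 1) e (by omega), hold i e' (by omega), hn i h]
      · rw [hnew, hold i e' (by omega), hGn]

section Models

variable {E : Ext} (B : SimpBase E) (J : Iota B) (M : MTower E)
  (hM : ∀ i e, WC (B.sys (M.M i e)).Space)

/-- The realisations of a tower of models. -/
def Tower.ofModels : Tower where
  A i e := (B.sys (M.M i e)).Space
  wc := hM
  up i e' e := B.real (M.up i e' e)
  square i e'' e x := by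
    rw [← ContinuousMap.comp_apply, ← ContinuousMap.comp_apply, ← B.real_comp, ← B.real_comp,
      M.square]

variable {B M}

/-- The family of maps of discs given by a carried family of cells. -/
def Tower.Fam.theta {N : ℕ} (φ : M.Fam N) : (Tower.ofModels B M hM).Fam N where
  f i e := if h : i ≤ N then J.theta (M.M i e) (φ.c i h e) else
    ContinuousMap.const _ (hM i e).nonempty.some
  nat i h e' e := by
    refine Eq.trans ?_ (congrArg (fun z : C(Ball i, (B.sys (M.M i e')).Space) =>
      (B.real (M.up i e' e)).comp z) (dif_pos h.le).symm)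
    refine (congrArg (fun z : C(Ball (i + 1), (B.sys (M.M (i + 1) e)).Space) =>
      z.comp (hemi e' i)) (dif_pos (show i + 1 ≤ N from h))).trans ?_
    exact (J.theta_hemi _ _ _).trans ((congrArg (J.theta _) (φ.nat i h e' e)).trans
      (J.theta_app _ _))

theorem Tower.Fam.theta_f {N : ℕ} (φ : M.Fam N) {i : ℕ} (h : i ≤ N) (e : Bool) :
    (Tower.Fam.theta J hM φ).f i e = J.theta (M.M i e) (φ.c i h e) :=
  dif_pos h

end Models

/-- Carried families give homotopic maps of pairs. -/
theorem Tower.Fam.pmap_hom {n : ℕ} (φ ψ : T.Fam (n + 1)) {W Z : Type} [TopologicalSpace W]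
    [TopologicalSpace Z] {r : C(Z, W)} (k : C(T.A (n + 1) false, W)) (q : ∀ e, C(T.A n e, Z))
    (hk : ∀ e x, r (q e x) = k (T.up n e false x))
    (hq : ∀ i (h : i + 1 = n) (e' : Bool) (x : T.A i e'),
      q false (h ▸ T.up i e' false x) = q true (h ▸ T.up i e' true x))
    (p p' : PMap (rim (n + 1)) r)
    (hf : ∀ v, p.f v = k (φ.f (n + 1) false v)) (hf' : ∀ v, p'.f v = k (ψ.f (n + 1) false v))
    (hw : ∀ e v, p.w ⟨hemi e n v, Ball.hemi_mem_rim e v⟩ = q e (φ.f n e v))
    (hw' : ∀ e v, p'.w ⟨hemi e n v, Ball.hemi_mem_rim e v⟩ = q e (ψ.f n e v)) : p.Hom p' := by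
  obtain ⟨H, h0, h1, hn⟩ := φ.exists_homotopy ψ
  obtain ⟨c, hc⟩ := Ball.exists_glue (K := I) (fun e => (q e).comp (H n e)) (fun v hv t => by
    cases n with
    | zero => exact absurd hv (by simp [Ball.rim_zero])
    | succ L =>
      obtain ⟨e', u, rfl⟩ := Ball.exists_hemi hv
      show q false (H (L + 1) false (hemi e' L u, t)) = q true (H (L + 1) true (hemi e' L u, t))
      rw [hn L (by omega), hn L (by omega)]
      exact hq L rfl e' (H L e' (u, t)))
  refine ⟨k.comp (H (n + 1) false), c, ?_, fun v => ?_, fun v => ?_, ?_, ?_⟩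
  · rintro ⟨w, hw⟩ t
    obtain ⟨e, v, rfl⟩ := Ball.exists_hemi hw
    rw [ContinuousMap.comp_apply, hn n n.lt_succ_self, hc, ContinuousMap.comp_apply, hk]
  · rw [ContinuousMap.comp_apply, h0 _ _ _ le_rfl, hf]
  · rw [ContinuousMap.comp_apply, h1 _ _ _ le_rfl, hf']
  · rintro ⟨w, hw₀⟩
    obtain ⟨e, v, rfl⟩ := Ball.exists_hemi hw₀
    rw [hc, ContinuousMap.comp_apply, h0 _ _ _ n.le_succ, hw]
  · rintro ⟨w, hw₀⟩
    obtain ⟨e, v, rfl⟩ := Ball.exists_hemi hw₀
    rw [hc, ContinuousMap.comp_apply, h1 _ _ _ n.le_succ, hw']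

end

end Vale.Agent.P259.Pi
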