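import Vale.Agent.P259.Pi.SideMaps
import Vale.Agent.P259.Pi.InjectModels
import Vale.Agent.P259.Pi.Tower
import Vale.Agent.P259.Top.Pair
import Vale.Agent.P259.Real.Bdry

/-!
# P259, Pi: homotopic cells give an extending boundary family

The topological half of injectivity.
-/

namespace Vale.Agent.P259.Pi

open CategoryTheory Opposite
open P259.Complex
open scoped Topology unitInterval Classical

noncomputable section

/-- Every side of the subdivided simplex has a contractible free model. -/
theorem ctr_sides (hR : Spec.RepExists) (hZ : Spec.RepCtrZig) {C : Coherator} (S : Simplices C.C)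
    (M N i : ℕ) (e : Bool) :
    C.C.Ctr (faceRep (S := S) hR (Subdivision.iter M N) (sidesC M i e)).G.obj := by
  have hz : OCx.IsZig ((sidesC M i e).Sub (Subdivision.iter M N)) := by
    refine (sidesC M i e).zig_sub ?_ N
    by_cases h : i < M
    · rw [sidesC_lt h]
      exact zig_sides_base h e
    · rw [sidesC_ge (not_lt.1 h)]
      refine ⟨⟨⟨Finset.univ, Cx.mem_full _, Finset.univ_nonempty⟩, trivial⟩, .rel _ _ fun t => ?_⟩
      exact Finset.subset_univ _
  exact hZ C S ((sidesC M i e).Sub (Subdivision.iter M N)) hz _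

/-- Maps of the boundary of a simplex into a weakly contractible space extend. -/
theorem exists_extend_proper {W : Type} [TopologicalSpace W] (hW : WC W) (k : ℕ)
    (f : C((Faces.proper k).space, W)) :
    ∃ F : C(Simplex k, W), ∀ p : (Faces.proper k).space, F p.1 = f p := by
  obtain ⟨e, he⟩ := exists_ball_simplex k
  exact IsBall.fills (B := (Faces.proper k).space) ⟨k, e, he⟩ W hW f

theorem real_id_apply {E : Ext} (B : SimpBase E) {X : E.Gpd} (p : (B.sys X).Space) :
    B.real (𝟙 X) p = p :=
  DFunLike.congr_fun (B.real_id X) p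

theorem real_comp_apply {E : Ext} (B : SimpBase E) {X Y Z : E.Gpd} (f : X ⟶ Y) (g : Y ⟶ Z)
    (p : (B.sys X).Space) : B.real g (B.real f p) = B.real (f ≫ g) p :=
  (DFunLike.congr_fun (B.real_comp f g) p).symm

/-- Points over two sides of the top dimension lie over a lower side. -/
theorem sides_inter {M L : ℕ} (hM : L + 1 < M) {s : Finset (Fin (M + 1))}
    (h0 : (sides M (L + 1) false).mem s) (h1 : (sides M (L + 1) true).mem s) :
    ∃ e, (sides M L e).mem s := by
  by_cases hf : firstV (show L < M by omega) ∈ s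
  · refine ⟨true, h0, fun hc => h1.2 fun x hx => ?_⟩
    by_cases hxf : x ∈ fin M L
    · exact hc hxf
    · have h2 := mem_fin.1 hx
      have h3 : ¬ M ≤ x.1 + L := fun h => hxf (mem_fin.2 h)
      have hxe : x = firstV (show L < M by omega) := Fin.ext (by
        show x.1 = M - (L + 1); omega)
      rw [hxe]
      exact hf
  · refine ⟨false, fun x hx => mem_fin.2 ?_⟩
    have h2 := mem_fin.1 (h0 hx)
    by_contra h3
    exact hf (Eq.mp (congrArg (fun y => y ∈ s) (Fin.ext (show x.1 = M - (L + 1) by omega))) hx)

variable {C : Coherator} {S : Simplices C.C} (J : Iota S.toSimpBase) {n : ℕ}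

/-- **Homotopic cells give an extending doubled family.** -/
theorem extends_of_hom (hB : ∀ T, WC (space S.toSimpBase T)) {Z X : C.C.Gpd} (r : Z ⟶ X)
    (hZ : WC (S.toSimpBase.sys Z).Space)
    {g : S.F (n + 1) ⟶ C.C.yon (disc (n + 1))} (hg : IsPattern S g)
    (b : Bool → C.C.cells Z.obj n) (hb : C.C.Par Z.obj (b false) (b true))
    (w : C(rim (n + 1), (S.toSimpBase.sys Z).Space))
    (hw : ∀ e v, ∀ h : hemi e n v ∈ rim (n + 1), w ⟨_, h⟩ = J.theta Z (b e) v)
    {a a' : C.C.cells X.obj (n + 1)}
    (hs : ∀ e, C.C.act X.obj (C.C.face e n) a = C.C.appCell r.hom n (b e))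
    (hs' : ∀ e, C.C.act X.obj (C.C.face e n) a' = C.C.appCell r.hom n (b e))
    (ha : ∀ v : rim (n + 1), J.theta X a v.1 = S.toSimpBase.real r (w v))
    (ha' : ∀ v : rim (n + 1), J.theta X a' v.1 = S.toSimpBase.real r (w v))
    (hom : (PMap.mk (J.theta X a) w ha).Hom (PMap.mk (J.theta X a') w ha'))
    (bb : Fam (OCx.bdry (n + 1 + 1)) (S.toSimpBase.sys X))
    (hbb : ∀ {k : ℕ} (v : (OCx.bdry (n + 1 + 1)).Simp k),
      bb.app v = S.map ((collapse (n + 1)).comp ⟨v.1, (v.2.1 : StrictMono v.1).monotone⟩) ≫ g ≫
        C.C.ofValue X (if sideOf (⟨v.1, (v.2.1 : StrictMono v.1).monotone⟩ : Op k (n + 1 + 1))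
          then a' else a))
    (lab : Fin (n + 1 + 1 + 1) → ℚ) (hl : StrictMono lab) :
    ∃ H : C(Simplex (n + 1 + 1), (S.toSimpBase.sys X).Space),
      ∀ p : (Faces.proper (n + 1 + 1)).space, H p.1 = bb.realBdry lab hl p := by
  let B := S.toSimpBase
  have hE : C.C.Contractible := C.C_contractible
  let M := n + 1 + 1
  obtain ⟨b1, hb1⟩ := exists_dbl S hg (fun _ => 𝟙 (C.C.yon (disc (n + 1)))) fun _ _ _ => rfl
  let P : C((Faces.proper M).space, space B (disc (n + 1))) := b1.realBdry lab hl
  choose u hu using fun i (h : i < n + 1) e => exists_retr_sd hE e i (n + 1) h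
  let psd : ∀ i (_ : i < n + 1) (e : Bool), space B (disc i) → space B (disc (n + 1)) :=
    fun i h e => rmap B (sd C.C e h)
  -- points over a side are fixed by its projector
  have hfix : ∀ i (hi : i < n + 1) (e : Bool) (p : (Faces.proper M).space),
      (sides M i e).mem p.1.w.support →
        rmap B (sd C.C e hi) (rmap B (u i hi e) (P p)) = P p := by
    intro i hi e p hp
    rw [real_comp_apply, ← yonMap_comp]
    refine (b1.realBdry_map (B.sysMap (C.C.yonMap (u i hi e ≫ sd C.C e hi))) lab hl p).symm.trans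
      (Fam.realBdry_congr _ _ lab hl p fun {j} v hv => ?_)
    show b1.app v ≫ _ = b1.app v
    have hmem : (sides M i e).mem (img (⟨v.1, (v.2.1 : StrictMono v.1).monotone⟩ : Op j M)) :=
      (sides M i e).down (fun x hx => by
        obtain ⟨q, -, rfl⟩ := Finset.mem_image.1 hx
        exact hv q) hp
    obtain ⟨h0, hcol⟩ := sides_collapse hi e hmem
    obtain ⟨y, hy⟩ := hg i hi e j _ (collapse_injective (v.2.1 : StrictMono v.1).injective h0) hcol
    have hb1v : b1.app v = y ≫ C.C.yonMap (sd C.C e hi) :=
      (hb1 v).trans ((congrArg (fun z => S.map _ ≫ z) (Category.comp_id g)).trans hy)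
    rw [hb1v]
    show (y ≫ C.C.yonMap (sd C.C e hi)) ≫ C.C.yonMap (u i hi e ≫ sd C.C e hi) =
      y ≫ C.C.yonMap (sd C.C e hi)
    rw [Category.assoc, ← yonMap_comp, ← Category.assoc (sd C.C e hi), hu, Category.id_comp]
  -- the family carried by the discs
  let pt : ∀ i (_ : i < M) (_ : Bool), C(Ball i, (Faces.proper M).space) := fun i h e =>
    ⟨fun v => ⟨sigma h e v, sides_proper h e (sigma_mem h e v)⟩,
      (sigma h e).continuous.subtype_mk _⟩
  let f : ∀ i (_ : Bool), C(Ball i, space B (disc i)) := fun i e =>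
    if h : i < n + 1 then (rmap B (u i h e)).comp (P.comp (pt i (h.trans (n + 1).lt_succ_self) e))
    else if h' : i = n + 1 then h' ▸ P.comp (pt (n + 1) (n + 1).lt_succ_self false)
    else J.ι i
  have hflow : ∀ i (h : i < n + 1) e v,
      f i e v = rmap B (u i h e) (P (pt i (h.trans (n + 1).lt_succ_self) e v)) := fun i h e v =>
    DFunLike.congr_fun (dif_pos h) v
  have hftop : ∀ e v, f (n + 1) e v = P (pt (n + 1) (n + 1).lt_succ_self false v) := fun e v => by
    have hf' : f (n + 1) e = P.comp (pt (n + 1) (n + 1).lt_succ_self false) :=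
      (dif_neg (lt_irrefl (n + 1))).trans (dif_pos rfl)
    exact DFunLike.congr_fun hf' v
  let Tw := Tower.ofModels B (discTower C.C) fun i _ => hB (disc i)
  let F : Tw.Fam (n + 1) :=
    { f := fun i e => f i e
      nat := fun i h e' e => ContinuousMap.ext fun v => by
        show f (i + 1) e (hemi e' i v) = rmap B (C.C.face e' i) (f i e' v)
        have hy := hfix i h e' (pt i (h.trans (n + 1).lt_succ_self) e' v) (sigma_mem _ _ _)
        rw [hflow i h e' v]
        rcases (Nat.succ_le_of_lt h).lt_or_eq with h1 | h1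
        · rw [hflow (i + 1) h1 e,
            show pt (i + 1) (h1.trans (n + 1).lt_succ_self) e (hemi e' i v) =
              pt i (h.trans (n + 1).lt_succ_self) e' v from Subtype.ext (sigma_hemi _ _ _ _)]
          refine (congrArg (rmap B (u (i + 1) h1 e)) hy.symm).trans ?_
          rw [real_comp_apply (X := C.C.yon (disc i)), ← yonMap_comp]
          congr 3
          rw [show sd C.C e' h = C.C.face e' i ≫ sd C.C e h1 from
            (sd_sd e' e i.lt_succ_self h1).symm, Category.assoc, hu, Category.comp_id]
        · obtain rfl : i = n := Nat.succ_injective h1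
          rw [hftop e,
            show pt (i + 1) (i + 1).lt_succ_self false (hemi e' i v) =
              pt i (h.trans (i + 1).lt_succ_self) e' v from Subtype.ext (sigma_hemi _ _ _ _)]
          exact hy.symm }
  let Fi : Tw.Fam (n + 1) := ⟨fun i _ => J.ι i, fun i _ e' _ => J.nat e' i⟩
  -- pairs on the facet
  have hN : n + 1 ≤ M := (n + 1).le_succ
  have hfac : ∀ q : Simplex (n + 1), (opMap (emb hN) q).w.support ⊆ fin M (n + 1) := fun q x hx => by
    obtain ⟨y, -, rfl⟩ := (@Finset.mem_image _ _ (_) _ _ _).1
      (Real.map_support (L := Cx.full (Fin (M + 1))) (emb hN) (Cx.isSimplicial_full _) q hx)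
    exact emb_mem_fin hN y
  let emb0 : C(Simplex (n + 1), (Faces.proper M).space) :=
    ⟨fun q => ⟨opMap (emb hN) q, sides_proper (n + 1).lt_succ_self false (hfac q)⟩,
      (opMap (emb hN)).continuous.subtype_mk _⟩
  let U : C.C.cells X.obj (n + 1) → C(Simplex (n + 1), (B.sys X).Space) := fun x =>
    (B.real (C.C.ofValue X x)).comp (P.comp emb0)
  let q : Bool → C(space B (disc n), (B.sys Z).Space) := fun e => B.real (C.C.ofValue Z (b e))
  have hqq : ∀ i (h : i + 1 = n) (e' : Bool) (x : space B (disc i)),
      q false (h ▸ rmap B (C.C.face e' i) x) = q true (h ▸ rmap B (C.C.face e' i) x) := by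
    rintro i rfl e' x
    show B.real _ (B.real _ x) = B.real _ (B.real _ x)
    rw [real_comp_apply, real_comp_apply, ← ofValue_act, ← ofValue_act, hb e']
  -- lifting the boundary of the facet to `Z`
  let A : Bool → Set ((Faces.proper (n + 1)).space) := fun e =>
    {p | (sides M n e).mem (opMap (emb hN) p.1).w.support}
  have hA : ∀ e, IsClosed (A e) := by
    intro e
    have h : A e = ⋃ s ∈ {s : Finset (Fin (M + 1)) | (sides M n e).mem s},
        (fun p : (Faces.proper (n + 1)).space => opMap (emb hN) p.1) ⁻¹' Real.within s := by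
      ext p
      simp only [Set.mem_iUnion, Set.mem_preimage, exists_prop]
      exact ⟨fun hp => ⟨_, hp, Finset.Subset.refl _⟩, fun ⟨s, hs, hp⟩ => (sides M n e).down hp hs⟩
    rw [h]
    refine (Set.toFinite _).isClosed_biUnion fun s _ => IsClosed.preimage
      ((opMap (emb hN)).continuous.comp continuous_subtype_val) ?_
    exact (Real.isCompact_within s).isClosed
  have hcov : ∀ p, ∃ e, p ∈ A e := fun p => by
    have hs := hfac p.1
    by_cases hf : firstV (show n < M by omega) ∈ (opMap (emb hN) p.1).w.support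
    · refine ⟨true, hs, fun hc => p.2 (Finset.eq_univ_iff_forall.2 fun y => ?_)⟩
      rw [Finsupp.mem_support_iff, ← opMap_apply (emb_injective hN)]
      refine Finsupp.mem_support_iff.1 ?_
      by_cases hy : emb hN y ∈ fin M n
      · exact hc hy
      · have h2 := mem_fin.1 (emb_mem_fin hN y)
        have h3 : ¬ M ≤ (emb hN y).1 + n := fun h => hy (mem_fin.2 h)
        rw [show emb hN y = firstV (show n < M by omega) from
          Fin.ext (by show (emb hN y).1 = M - (n + 1); omega)]
        exact hf
    · refine ⟨false, fun x hx => mem_fin.2 ?_⟩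
      have h2 := mem_fin.1 (hs hx)
      by_contra h3
      exact hf (Eq.mp (congrArg (fun y => y ∈ (opMap (emb hN) p.1).w.support)
        (Fin.ext (show x.1 = M - (n + 1) by omega))) hx)
  let restr : C((Faces.proper (n + 1)).space, (Faces.proper M).space) :=
    ⟨fun p => emb0 p.1, emb0.continuous.comp continuous_subtype_val⟩
  obtain ⟨wl, hwl⟩ := exists_glue_closed hA hcov
    (fun e => ((q e).comp ((rmap B (u n n.lt_succ_self e)).comp (P.comp restr))).comp
      ⟨Subtype.val, continuous_subtype_val⟩)
    (by
      intro e e' p hp hp'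
      suffices h : ∀ p (_ : p ∈ A false) (_ : p ∈ A true),
          q false (rmap B (u n n.lt_succ_self false) (P (restr p))) =
            q true (rmap B (u n n.lt_succ_self true) (P (restr p))) by
        cases e <;> cases e'
        exacts [rfl, h p hp hp', (h p hp' hp).symm, rfl]
      intro p hF hT
      obtain _ | L := n
      · obtain ⟨x, hx⟩ := (opMap (emb hN) p.1).support_nonempty
        refine absurd ?_ hT.2
        intro y hy
        obtain rfl : y = x := by
          have h1 := mem_fin.1 hy
          have h2 := mem_fin.1 (hF hx)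
          exact Fin.ext (by omega)
        exact hx
      · obtain ⟨e'', he''⟩ := sides_inter (show L + 1 < M by omega) hF hT
        have hy := hfix L (show L < L + 1 + 1 by omega) e'' (restr p) he''
        rw [← hy]
        show B.real _ (B.real _ (B.real _ _)) = B.real _ (B.real _ (B.real _ _))
        rw [real_comp_apply B (C.C.yonMap (sd C.C e'' _)) (C.C.yonMap (u (L + 1) _ false)),
          real_comp_apply B (C.C.yonMap (sd C.C e'' _)) (C.C.yonMap (u (L + 1) _ true)),
          ← yonMap_comp, ← yonMap_comp]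
        have he : ∀ ee, sd C.C e'' (show L < L + 1 + 1 by omega) ≫
            u (L + 1) (L + 1).lt_succ_self ee = C.C.face e'' L := fun ee => by
          rw [show sd C.C e'' (show L < L + 1 + 1 by omega) =
            C.C.face e'' L ≫ sd C.C ee (L + 1).lt_succ_self from
            (sd_sd e'' ee L.lt_succ_self _).symm, Category.assoc, hu, Category.comp_id]
        rw [he, he]
        exact hqq L rfl e'' _)
  have hval : ∀ x, (∀ e, C.C.act X.obj (C.C.face e n) x = C.C.appCell r.hom n (b e)) →
      ∀ p : (Faces.proper (n + 1)).space, U x p.1 = B.real r (wl p) := by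
    intro x hx p
    obtain ⟨e, he⟩ := hcov p
    rw [hwl e ⟨p, he⟩]
    show B.real (C.C.ofValue X x) (P (restr p)) =
      B.real r (B.real (C.C.ofValue Z (b e)) (rmap B (u n n.lt_succ_self e) (P (restr p))))
    rw [real_comp_apply B (C.C.ofValue Z (b e)) r, ← ofValue_app_cell,
      show r.hom.app _ (b e) = _ from (hx e).symm, ofValue_act,
      ← real_comp_apply]
    exact congrArg (B.real (C.C.ofValue X x)) (hfix n n.lt_succ_self e (restr p) he).symm
  let Up : ∀ x, (∀ e, C.C.act X.obj (C.C.face e n) x = C.C.appCell r.hom n (b e)) →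
      PMap (Faces.proper (n + 1)).space (B.real r) := fun x hx => ⟨U x, wl, hval x hx⟩
  have hδ := dlt_pairEquiv (n + 1)
  -- both pulled back pairs are homotopic to the maps given by the cells
  have hkey : ∀ x (hx : ∀ e, C.C.act X.obj (C.C.face e n) x = C.C.appCell r.hom n (b e))
      (hxw : ∀ v : rim (n + 1), J.theta X x v.1 = B.real r (w v)),
      (PMap.mk (J.theta X x) w hxw).Hom ((Up x hx).pull (dlt (n + 1)) hδ.1) := by
    intro x hx hxw
    refine Tower.Fam.pmap_hom Fi F (B.real (C.C.ofValue X x)) q ?_ hqq _ _ (fun v => rfl)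
      (fun v => ?_) (fun e v => ?_) (fun e v => ?_)
    · intro e y
      show B.real r (B.real (C.C.ofValue Z (b e)) y) =
        B.real (C.C.ofValue X x) (rmap B (C.C.face e n) y)
      have h1 : C.C.ofValue Z (b e) ≫ r = C.C.yonMap (C.C.face e n) ≫ C.C.ofValue X x :=
        (ofValue_app_cell r (b e)).symm.trans
          ((congrArg (C.C.ofValue X) (hx e).symm).trans (ofValue_act X _ x))
      exact (real_comp_apply B (X := C.C.yon (disc n)) _ r y).trans
        ((congrArg (fun z => B.real z y) h1).trans (real_comp_apply B _ _ y).symm)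
    · refine congrArg (B.real (C.C.ofValue X x)) ((congrArg P ?_).trans (hftop false v).symm)
      exact rfl
    · exact hw e v _
    · have hmem : hemi e n v ∈ rim (n + 1) := Ball.hemi_mem_rim e v
      have hsg : opMap (emb hN) (dlt (n + 1) (hemi e n v)) =
          sigma (n.lt_succ_self.trans (n + 1).lt_succ_self) e v :=
        sigma_hemi (n + 1).lt_succ_self false e v
      have hAe : (⟨dlt (n + 1) (hemi e n v), hδ.1 hmem⟩ : (Faces.proper (n + 1)).space) ∈ A e := by
        show (sides M n e).mem (opMap (emb hN) (dlt (n + 1) (hemi e n v))).w.support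
        rw [hsg]
        exact sigma_mem _ _ _
      refine (hwl e ⟨_, hAe⟩).trans (congrArg (q e) ?_)
      show rmap B (u n n.lt_succ_self e) (P (emb0 (dlt (n + 1) (hemi e n v)))) = f n e v
      rw [hflow n n.lt_succ_self e v]
      exact congrArg (fun z => rmap B (u n n.lt_succ_self e) (P z)) (Subtype.ext hsg)
  have hUa := ((hkey a hs ha).symm.trans hom).trans (hkey a' hs' ha')
  have hUU := PMap.hom_of_pull_hom hδ hUa
  obtain ⟨eb, heb⟩ := exists_ball_simplex (n + 1)
  obtain ⟨G⟩ := (PMap.hom_iff_homotopicRel ⟨n + 1, eb, heb⟩ hZ (p := Up a hs) (q := Up a' hs')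
    rfl).1 hUU
  -- the facet and the horn
  have hf : ∀ e j (h : j < n + 1), C.C.yonMap (sd C.C e h) ≫ C.C.ofValue X a =
      C.C.yonMap (sd C.C e h) ≫ C.C.ofValue X a' := by
    intro e j h
    rw [← ofValue_act, ← ofValue_act]
    congr 1
    rcases (Nat.lt_succ_iff.1 h).lt_or_eq with hj | rfl
    · rw [← sd_face e false hj, C.C.act_comp, C.C.act_comp, hs, hs']
    · exact (hs e).trans (hs' e).symm
  have hhorn : ∀ p : (Faces.proper M).space, (∃ i, i ≠ 0 ∧ p.1.w i = 0) →
      bb.realBdry lab hl p = B.real (C.C.ofValue X a') (P p) := by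
    intro p ⟨i, hi, hpi⟩
    refine Eq.trans ?_ (b1.realBdry_map (B.sysMap (C.C.ofValue X a')) lab hl p)
    refine Fam.realBdry_congr _ _ lab hl p fun {j} v hv => ?_
    let vo : Op j M := ⟨v.1, (v.2.1 : StrictMono v.1).monotone⟩
    show bb.app v = b1.app v ≫ C.C.ofValue X a'
    rw [hbb, hb1, Category.assoc, Category.assoc, Category.id_comp]
    by_cases h0 : (0 : Fin (M + 1)) ∈ img vo
    · rw [show sideOf vo = true from if_pos h0]
      rfl
    · rw [show sideOf vo = false from if_neg h0]
      have hiv : i ∉ img vo := fun hm => by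
        obtain ⟨z, -, hz⟩ := Finset.mem_image.1 hm
        exact Finsupp.mem_support_iff.1 (hv z) ((congrArg (fun y => p.1.w y) hz).trans hpi)
      exact hg.proper_eq (f := C.C.ofValue X a) (f' := C.C.ofValue X a') hf _
        (collapse_injective (v.2.1 : StrictMono v.1).injective h0) (collapse_proper h0 hi hiv)
  have hfacet : ∀ p : (Faces.proper M).space, p.1.w 0 = 0 →
      bb.realBdry lab hl p = B.real (C.C.ofValue X a) (P p) := by
    intro p hp
    refine Eq.trans ?_ (b1.realBdry_map (B.sysMap (C.C.ofValue X a)) lab hl p)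
    refine Fam.realBdry_congr _ _ lab hl p fun {j} v hv => ?_
    let vo : Op j M := ⟨v.1, (v.2.1 : StrictMono v.1).monotone⟩
    show bb.app v = b1.app v ≫ C.C.ofValue X a
    have h0 : (0 : Fin (M + 1)) ∉ img vo := fun hm => by
      obtain ⟨z, -, hz⟩ := Finset.mem_image.1 hm
      exact Finsupp.mem_support_iff.1 (hv z) ((congrArg (fun y => p.1.w y) hz).trans hp)
    rw [hbb, hb1, Category.assoc, Category.assoc, Category.id_comp,
      show sideOf vo = false from if_neg h0]
    rfl
  have hback : ∀ p : (Faces.proper M).space, p.1.w 0 = 0 →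
      emb0 (opMap (collapse (n + 1)) p.1) = p := by
    intro p hp
    refine Subtype.ext ?_
    show opMap (emb hN) (opMap (collapse (n + 1)) p.1) = p.1
    rw [opMap_comp]
    refine Real.ext ((Finsupp.mapDomain_congr fun x hx => ?_).trans Finsupp.mapDomain_id)
    have hx0 : x.1 ≠ 0 := fun hv => Finsupp.mem_support_iff.1 hx (by
      rw [show x = 0 from Fin.ext hv]; exact hp)
    exact Fin.ext (by show x.1 - 1 + (n + 1 + 1 - (n + 1)) = x.1; omega)
  obtain ⟨F1, hF1⟩ := exists_extend_proper (hB (disc (n + 1))) M P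
  refine exists_extend_of_facet (bb.realBdry lab hl) ((B.real (C.C.ofValue X a')).comp P)
    ⟨fun z => G.symm (z.2, opMap (collapse (n + 1)) z.1.1.1), G.symm.continuous.comp
      (continuous_snd.prodMk ((opMap (collapse (n + 1))).continuous.comp
        (continuous_subtype_val.comp (continuous_subtype_val.comp continuous_fst))))⟩
    hhorn ?_ ?_ ?_ ((B.real (C.C.ofValue X a')).comp F1)
    (fun p => congrArg (B.real (C.C.ofValue X a')) (hF1 p))
  · intro p
    show G.symm (0, _) = _
    rw [G.symm.apply_zero]
    exact congrArg (fun z => B.real (C.C.ofValue X a') (P z)) (hback p.1 p.2)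
  · intro p
    show G.symm (1, _) = _
    rw [G.symm.apply_one]
    exact (congrArg (fun z => B.real (C.C.ofValue X a) (P z)) (hback p.1 p.2)).trans
      (hfacet p.1 p.2).symm
  · rintro p ⟨i, hi, hpi⟩ t
    show G.symm (t, _) = _
    have hmem : opMap (collapse (n + 1)) p.1.1 ∈ (Faces.proper (n + 1)).space := by
      intro hu'
      have hi' : i.1 ≠ 0 := fun hv => hi (Fin.ext hv)
      have h1 : (⟨i.1 - 1, by omega⟩ : Fin (n + 1 + 1)) ∈
          (opMap (collapse (n + 1)) p.1.1).w.support := hu' ▸ Finset.mem_univ _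
      obtain ⟨x, hx, hxe⟩ := (@Finset.mem_image _ _ (_) _ _ _).1 (Real.map_support
        (L := Cx.full (Fin (n + 1 + 1))) (collapse (n + 1)) (Cx.isSimplicial_full _) p.1.1 h1)
      have hx0 : x.1 ≠ 0 := fun hv => Finsupp.mem_support_iff.1 hx (by
        rw [show x = 0 from Fin.ext hv]; exact p.2)
      have hv : x.1 - 1 = i.1 - 1 := congrArg Fin.val hxe
      exact Finsupp.mem_support_iff.1 hx (by
        rw [show x = i from Fin.ext (by omega)]; exact hpi)
    rw [G.symm.eq_fst t hmem]
    exact congrArg (fun z => B.real (C.C.ofValue X a') (P z)) (hback p.1 p.2)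

end

end Vale.Agent.P259.Pi
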