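import Vale.Agent.P259.Pi.Surject
import Vale.Agent.P259.Pi.ChangeClass
import Vale.Agent.P259.Pi.Inject

/-!
# P259, Pi: cells with given sides correspond to classes of maps of pairs
-/

namespace Vale.Agent.P259.Pi

open CategoryTheory Opposite
open scoped Topology unitInterval

noncomputable section

theorem realPi (hR : Spec.RepExists) (hZ : Spec.RepCtrZig) (hW : Spec.RealWC)
    (hF : Spec.SysFills) : Spec.RealPi := by
  intro C S J Z X r hctr n b hb w hw
  have hB : ∀ T, WC (space S.toSimpBase T) := space_wc hW hF S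
  have hw' : ∀ e v, w ⟨hemi e n v, Ball.hemi_mem_rim e v⟩ = J.theta Z (b e) v :=
    fun e v => hw e v _
  refine ⟨fun f hf => ?_, fun a a' hs hs' ha ha' hom => ?_⟩
  · obtain ⟨b', hb', K, hK, w', hwb, hKw, hom⟩ := exists_cell J hR hZ hW hF r w f hf
    obtain ⟨a, has, ha, hom'⟩ :=
      exists_change_class S.toSimpBase r J hB C.C_contractible hctr hb hb' w w' hw' hwb K
        ⟨hK false, hK true⟩ hKw
    exact ⟨a, has, ha, hom'.symm.trans hom⟩
  · exact linked_of_hom J hR hZ hB r (hW _ (hF C S Z hctr)) b hb w hw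
      (fun e => by cases e; exacts [hs.1, hs.2]) (fun e => by cases e; exacts [hs'.1, hs'.2])
      ha ha' hom

end

end Vale.Agent.P259.Pi
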