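import Vale.Agent.P259.Real.Approx

/-!
# P259, Pi: the faces of a simplex lying over the sides of a disc

The source side of dimension `i` is the face of the last `i + 1` vertices; the target side is the
horn of the face of the last `i + 2` vertices at its first vertex.
-/

namespace Vale.Agent.P259.Pi

open P259.Complex

noncomputable section

/-- The last `i + 1` vertices. -/
def fin (M i : ℕ) : Finset (Fin (M + 1)) := Finset.univ.filter fun x => M ≤ x.1 + i

theorem mem_fin {M i : ℕ} {x : Fin (M + 1)} : x ∈ fin M i ↔ M ≤ x.1 + i := by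
  simp [fin]

theorem fin_mono {M i j : ℕ} (h : i ≤ j) : fin M i ⊆ fin M j := fun x hx =>
  mem_fin.2 ((mem_fin.1 hx).trans (by omega))

/-- The faces over the side `e` of dimension `i`. -/
def sides (M i : ℕ) : Bool → Faces M
  | false => ⟨fun s => s ⊆ fin M i, fun hts hs => hts.trans hs⟩
  | true => ⟨fun s => s ⊆ fin M (i + 1) ∧ ¬ fin M i ⊆ s,
      fun hts hs => ⟨hts.trans hs.1, fun h => hs.2 (h.trans hts)⟩⟩

/-- The first of the last `i + 2` vertices. -/
def firstV {M i : ℕ} (_h : i < M) : Fin (M + 1) := ⟨M - (i + 1), by omega⟩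

theorem firstV_mem {M i : ℕ} (h : i < M) : firstV h ∈ fin M (i + 1) :=
  mem_fin.2 (by show M ≤ M - (i + 1) + (i + 1); omega)

theorem firstV_not_mem {M i : ℕ} (h : i < M) : firstV h ∉ fin M i := fun hm => by
  have := mem_fin.1 hm
  simp only [firstV] at this
  omega

theorem sides_up {M i : ℕ} (h : i + 1 ≤ M) (e' e : Bool) {s : Finset (Fin (M + 1))}
    (hs : (sides M i e').mem s) : (sides M (i + 1) e).mem s := by
  cases e' <;> cases e
  · exact hs.trans (fin_mono i.le_succ)
  · exact ⟨hs.trans (fin_mono (by omega)), fun hc =>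
      firstV_not_mem (show i < M from h) ((hc.trans hs) (firstV_mem h))⟩
  · exact hs.1
  · exact ⟨hs.1.trans (fin_mono (by omega)), fun hc => hs.2 ((fin_mono i.le_succ).trans hc)⟩

theorem sides_not_zero {M i : ℕ} (h : i < M) {s : Finset (Fin (M + 1))}
    (hs : s ⊆ fin M i) : (0 : Fin (M + 1)) ∉ s := fun h0 => by
  have := mem_fin.1 (hs h0)
  simp only [Fin.val_zero] at this
  omega

/-- The sides are proper. -/
theorem sides_proper {M i : ℕ} (h : i < M) (e : Bool) {s : Finset (Fin (M + 1))}
    (hs : (sides M i e).mem s) : s ≠ Finset.univ := by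
  intro hu
  subst hu
  cases e
  · exact sides_not_zero h hs (Finset.mem_univ _)
  · exact hs.2 (Finset.subset_univ _)

/-- Proper faces lie over the two sides of the top dimension. -/
theorem proper_sides {L : ℕ} {s : Finset (Fin (L + 2))} (hs : s ≠ Finset.univ) :
    ∃ e, (sides (L + 1) L e).mem s := by
  by_cases h0 : (0 : Fin (L + 2)) ∈ s
  · refine ⟨true, fun x _ => mem_fin.2 (Nat.le_add_left _ _), fun hc => hs ?_⟩
    refine Finset.eq_univ_of_forall fun x => ?_
    by_cases hx : x = 0
    · exact hx ▸ h0
    · refine hc (mem_fin.2 ?_)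
      have : x.1 ≠ 0 := fun hv => hx (Fin.ext hv)
      omega
  · refine ⟨false, fun x hx => mem_fin.2 ?_⟩
    have : x.1 ≠ 0 := fun hv => h0 (by rwa [show (0 : Fin (L + 2)) = x from Fin.ext hv.symm])
    omega

/-- The sides are contractible by comparable monotone maps. -/
theorem zig_sides_base {M i : ℕ} (h : i < M) (e : Bool) :
    OCx.IsZig ((sides M i e).Sub (Subdivision.iter M 0)) := by
  cases e
  · have hne : (fin M i).Nonempty :=
      ⟨Fin.last M, mem_fin.2 (by simp [Fin.val_last])⟩
    refine ⟨⟨⟨fin M i, Cx.mem_full _, hne⟩, subset_rfl⟩, .rel _ _ fun t => ?_⟩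
    exact t.2
  · let a := firstV h
    let A := (sides M i true).Sub (Subdivision.iter M 0)
    have hins : ∀ t : A, (sides M i true).mem (insert a t.1.1) := fun t =>
      ⟨Finset.insert_subset (firstV_mem h) t.2.1, fun hc => t.2.2 fun x hx => by
        rcases Finset.mem_insert.1 (hc hx) with hxa | hxa
        · exact absurd (show firstV h ∈ fin M i from Eq.mp (congrArg (· ∈ fin M i) hxa) hx) (firstV_not_mem h)
        · exact hxa⟩
    let q : A := ⟨⟨{a}, Cx.mem_full _, Finset.singleton_nonempty a⟩,
      Finset.singleton_subset_iff.2 (firstV_mem h), fun hc => by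
        have hl : Fin.last M ∈ fin M i := mem_fin.2 (by simp [Fin.val_last])
        have := Finset.mem_singleton.1 (hc hl)
        exact firstV_not_mem h (Eq.mp (congrArg (· ∈ fin M i) this) hl)⟩
    let f : A →o A :=
      { toFun := fun t => ⟨⟨insert a t.1.1, Cx.mem_full _, Finset.insert_nonempty _ _⟩, hins t⟩
        monotone' := fun t u htu => Finset.insert_subset_insert a htu }
    refine ⟨q, .trans _ f _ (.rel _ _ fun t => Finset.subset_insert a t.1.1) (.symm _ _ (.rel _ _ ?_))⟩
    exact fun t => Finset.singleton_subset_iff.2 (Finset.mem_insert_self a t.1.1)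

end

end Vale.Agent.P259.Pi
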