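import Vale.Agent.P259.Pi.Delta
import Vale.Agent.P259.Pi.Sides
import Vale.Agent.P259.Pi.Ball

/-!
# P259, Pi: the sides of the disc on the faces of the simplex
-/

namespace Vale.Agent.P259.Pi

open P259.Complex
open scoped Topology

noncomputable section

/-- The map from the disc to the simplex. -/
def dlt (n : ℕ) : C(Ball n, Simplex n) := exists_delta.choose n

/-- The horn map. -/
def hornS (n : ℕ) : C(Simplex n, Simplex (n + 1)) := exists_delta.choose_spec.choose n

theorem dlt_false_succ (n : ℕ) (v : Ball n) (i : Fin (n + 1)) :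
    (dlt (n + 1) (hemi false n v)).w i.succ = (dlt n v).w i :=
  exists_delta.choose_spec.choose_spec.1 n v i

theorem dlt_false_zero (n : ℕ) (v : Ball n) : (dlt (n + 1) (hemi false n v)).w 0 = 0 :=
  exists_delta.choose_spec.choose_spec.2.1 n v

theorem dlt_true (n : ℕ) (v : Ball n) : dlt (n + 1) (hemi true n v) = hornS n (dlt n v) :=
  exists_delta.choose_spec.choose_spec.2.2.1 n v

theorem hornS_zero (n : ℕ) (q : Simplex n) : ∃ i : Fin (n + 1), (hornS n q).w i.succ = 0 :=
  exists_delta.choose_spec.choose_spec.2.2.2.1 n q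

theorem dlt_pairEquiv (n : ℕ) : PairEquiv (rim n) (Faces.proper n).space (dlt n) :=
  exists_delta.choose_spec.choose_spec.2.2.2.2 n

/-- The last vertices as an operator. -/
def emb {i M : ℕ} (h : i ≤ M) : Op i M :=
  ⟨fun x => ⟨x.1 + (M - i), by omega⟩, fun x y hxy => by
    show x.1 + (M - i) ≤ y.1 + (M - i)
    have : x.1 ≤ y.1 := hxy
    omega⟩

theorem emb_injective {i M : ℕ} (h : i ≤ M) : Function.Injective (emb h) := fun x y hxy => by
  have hv : x.1 + (M - i) = y.1 + (M - i) := congrArg Fin.val hxy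
  exact Fin.ext (by omega)

theorem emb_mem_fin {i M : ℕ} (h : i ≤ M) (x : Fin (i + 1)) : emb h x ∈ fin M i :=
  mem_fin.2 (by show M ≤ x.1 + (M - i) + i; omega)

/-- The map of simplices of an operator. -/
def opMap {i M : ℕ} (a : Op i M) : C(Simplex i, Simplex M) :=
  Real.mapC a (Cx.isSimplicial_full _)

theorem opMap_apply {i M : ℕ} {a : Op i M} (ha : Function.Injective a) (q : Simplex i)
    (x : Fin (i + 1)) : (opMap a q).w (a x) = q.w x :=
  Finsupp.mapDomain_apply ha q.w x

theorem opMap_comp {i j M : ℕ} (a : Op i j) (b : Op j M) (q : Simplex i) :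
    opMap b (opMap a q) = opMap (b.comp a) q :=
  Real.ext Finsupp.mapDomain_comp.symm

theorem dlt_false (n : ℕ) (v : Ball n) :
    dlt (n + 1) (hemi false n v) = opMap (emb n.le_succ) (dlt n v) := by
  refine Real.ext (Finsupp.ext fun x => ?_)
  induction x using Fin.cases with
  | zero =>
    rw [dlt_false_zero]
    refine (Finsupp.mapDomain_of_notMem_range _ _ ?_).symm
    rintro ⟨y, hy⟩
    have hv : y.1 + (n + 1 - n) = 0 := congrArg Fin.val hy
    omega
  | succ i =>
    rw [dlt_false_succ, show i.succ = emb n.le_succ i from Fin.ext (by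
      show i.1 + 1 = i.1 + (n + 1 - n); omega), opMap_apply (emb_injective _)]

theorem emb_comp {i j M : ℕ} (h : i ≤ j) (h' : j ≤ M) :
    (emb h').comp (emb h) = emb (h.trans h') :=
  OrderHom.ext _ _ (funext fun x => Fin.ext (by
    show x.1 + (j - i) + (M - j) = x.1 + (M - i)
    omega))

/-- The side `e` of dimension `i` on the faces of the simplex over it. -/
def sigma {i M : ℕ} (h : i < M) : Bool → C(Ball i, Simplex M)
  | false => (opMap (emb h.le)).comp (dlt i)
  | true => (opMap (emb (show i + 1 ≤ M from h))).comp ((hornS i).comp (dlt i))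

open scoped Classical in
theorem sigma_mem {i M : ℕ} (h : i < M) (e : Bool) (v : Ball i) :
    (sides M i e).mem (sigma h e v).w.support := by
  cases e
  · intro x hx
    obtain ⟨y, -, rfl⟩ := (@Finset.mem_image _ _ (_) _ _ _).1
      (Real.map_support (L := Cx.full (Fin (M + 1))) (emb h.le) (Cx.isSimplicial_full _) _ hx)
    exact emb_mem_fin h.le y
  · refine ⟨fun x hx => ?_, fun hc => ?_⟩
    · obtain ⟨y, -, rfl⟩ := (@Finset.mem_image _ _ (_) _ _ _).1
        (Real.map_support (L := Cx.full (Fin (M + 1))) (emb (show i + 1 ≤ M from h))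
          (Cx.isSimplicial_full _) _ hx)
      exact emb_mem_fin (show i + 1 ≤ M from h) y
    · obtain ⟨j, hj⟩ := hornS_zero i (dlt i v)
      have hmem : emb (show i + 1 ≤ M from h) j.succ ∈ fin M i :=
        mem_fin.2 (by show M ≤ (j.1 + 1) + (M - (i + 1)) + i; omega)
      refine Finsupp.mem_support_iff.1 (hc hmem) ?_
      exact (opMap_apply (emb_injective _) (hornS i (dlt i v)) j.succ).trans hj

theorem hornS_rim (i : ℕ) {v : Ball i} (hv : v ∈ rim i) :
    hornS i (dlt i v) = opMap (emb i.le_succ) (dlt i v) := by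
  rw [← dlt_true, ← dlt_false, Ball.hemi_eq_of_rim true false hv]

theorem sigma_hemi {i M : ℕ} (h : i + 1 < M) (e e' : Bool) (v : Ball i) :
    sigma h e (hemi e' i v) = sigma (i.lt_succ_self.trans h) e' v := by
  have key : sigma h e (hemi e' i v) = opMap (emb h.le) (dlt (i + 1) (hemi e' i v)) := by
    cases e
    · rfl
    · show opMap (emb _) (hornS (i + 1) (dlt (i + 1) (hemi e' i v))) = _
      rw [hornS_rim (i + 1) (Ball.hemi_mem_rim e' v), opMap_comp, emb_comp]
  rw [key]
  cases e'
  · rw [dlt_false, opMap_comp, emb_comp]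
    rfl
  · rw [dlt_true]
    rfl

theorem dlt_hemi (n : ℕ) (e : Bool) (v : Ball n) :
    dlt (n + 1) (hemi e n v) = sigma n.lt_succ_self e v := by
  cases e
  · exact dlt_false n v
  · rw [dlt_true]
    refine Real.ext (Finsupp.ext fun x => ?_)
    obtain ⟨y, rfl⟩ : ∃ y, emb (show n + 1 ≤ n + 1 from le_rfl) y = x :=
      ⟨x, Fin.ext (by show x.1 + (n + 1 - (n + 1)) = x.1; omega)⟩
    exact ((opMap_apply (emb_injective _) (hornS n (dlt n v)) y).trans (congrArg _ (Fin.ext (by
      show y.1 = y.1 + (n + 1 - (n + 1)); omega)))).symm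

end

end Vale.Agent.P259.Pi
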