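import Vale.Agent.P259.Pi.Sides
import Vale.Agent.P259.Pi.Carried
import Vale.Agent.P259.Real.Psi

/-!
# P259, Pi: the free models on the sides of a subdivided simplex
-/

namespace Vale.Agent.P259.Pi

open CategoryTheory Opposite
open P259.Complex

noncomputable section

/-- Every face. -/
def allFaces (M : ℕ) : Faces M := ⟨fun _ => True, fun _ _ => trivial⟩

/-- The sides below the dimension, everything from there on. -/
def sidesC (M i : ℕ) (e : Bool) : Faces M := if i < M then sides M i e else allFaces M

theorem sidesC_lt {M i : ℕ} (h : i < M) (e : Bool) : sidesC M i e = sides M i e := if_pos h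

theorem sidesC_ge {M i : ℕ} (h : M ≤ i) (e : Bool) : sidesC M i e = allFaces M := if_neg (by omega)

theorem sidesC_up (M i : ℕ) (e' e : Bool) {s : Finset (Fin (M + 1))}
    (hs : (sidesC M i e').mem s) : (sidesC M (i + 1) e).mem s := by
  by_cases h : i + 1 < M
  · rw [sidesC_lt h]
    rw [sidesC_lt (by omega)] at hs
    exact sides_up h.le e' e hs
  · rw [sidesC_ge (by omega)]
    trivial

/-- The inclusion of the vertices of fewer faces. -/
def subIncl {M : ℕ} {A B : Faces M} (h : ∀ s, A.mem s → B.mem s) (T : Subdivision M) :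
    A.Sub T ↪o B.Sub T :=
  OrderEmbedding.ofMapLEIff (fun t => ⟨t.1, h _ t.2⟩) fun _ _ => Iff.rfl

/-- Restriction of a family on the vertices of fewer faces. -/
def restrSub {S : SimpSys} {M : ℕ} {A B : Faces M} (h : ∀ s, A.mem s → B.mem s) {T : Subdivision M}
    (g : Fam (OCx.chains (B.Sub T)) S) : Fam (OCx.chains (A.Sub T)) S where
  app v := g.app ⟨subIncl h T ∘ v.1, (subIncl h T).strictMono.comp v.2⟩
  nat _ δ hδ := g.nat _ δ hδ

variable {C : Coherator} {S : Simplices C.C} {M : ℕ} (hR : Spec.RepExists)
  (T : Subdivision M)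

/-- The free model on some faces. -/
def faceRep (A : Faces M) : S.toSimpBase.Rep (OCx.chains (A.Sub T)) :=
  (hR C.C S.toSimpBase (OCx.chains (A.Sub T))).some

variable {T}

/-- The map out of the free model on some faces. -/
def faceHom {A : Faces M} {X : C.C.Gpd} (g : Fam (OCx.chains (A.Sub T)) (S.toSimpBase.sys X)) :
    (faceRep (S := S) hR T A).G ⟶ X :=
  ((faceRep (S := S) hR T A).univ X g).exists.choose

theorem faceHom_spec {A : Faces M} {X : C.C.Gpd}
    (g : Fam (OCx.chains (A.Sub T)) (S.toSimpBase.sys X)) :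
    (faceRep (S := S) hR T A).fam.map (S.toSimpBase.sysMap (faceHom hR g)) = g :=
  ((faceRep (S := S) hR T A).univ X g).exists.choose_spec

theorem faceHom_app {A : Faces M} {X : C.C.Gpd}
    (g : Fam (OCx.chains (A.Sub T)) (S.toSimpBase.sys X)) {k : ℕ}
    (v : (OCx.chains (A.Sub T)).Simp k) :
    (faceRep (S := S) hR T A).fam.app v ≫ faceHom hR g = g.app v :=
  congrArg (fun c : Fam (OCx.chains (A.Sub T)) (S.toSimpBase.sys X) => c.app v)
    (faceHom_spec hR g)

theorem faceHom_ext {A : Faces M} {X : C.C.Gpd} {f f' : (faceRep (S := S) hR T A).G ⟶ X}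
    (h : ∀ (k : ℕ) (v : (OCx.chains (A.Sub T)).Simp k),
      (faceRep (S := S) hR T A).fam.app v ≫ f = (faceRep (S := S) hR T A).fam.app v ≫ f') :
    f = f' :=
  ((faceRep (S := S) hR T A).univ X _).unique rfl
    (Fam.ext (funext fun k => funext fun v => (h k v).symm))

variable (T)

/-- The map of free models of an inclusion of faces. -/
def faceIncl {A B : Faces M} (h : ∀ s, A.mem s → B.mem s) :
    (faceRep (S := S) hR T A).G ⟶ (faceRep (S := S) hR T B).G :=
  faceHom hR (restrSub h (faceRep (S := S) hR T B).fam)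

theorem faceIncl_comp {A B : Faces M} (h : ∀ s, A.mem s → B.mem s) {X : C.C.Gpd}
    (f : (faceRep (S := S) hR T B).G ⟶ X) :
    faceIncl hR T h ≫ f =
      faceHom hR (restrSub h ((faceRep (S := S) hR T B).fam.map (S.toSimpBase.sysMap f))) := by
  refine faceHom_ext hR fun k v => ?_
  exact (Category.assoc _ _ _).symm.trans
    ((congrArg (fun x => x ≫ f) (faceHom_app hR _ v)).trans
      (faceHom_app hR (restrSub h ((faceRep (S := S) hR T B).fam.map (S.toSimpBase.sysMap f)))
        v).symm)

theorem faceIncl_trans {A B B' : Faces M} (h : ∀ s, A.mem s → B.mem s)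
    (h' : ∀ s, B.mem s → B'.mem s) :
    faceIncl (S := S) hR T h ≫ faceIncl hR T h' = faceIncl hR T fun s hs => h' s (h s hs) := by
  rw [faceIncl_comp, faceIncl, faceHom_spec]
  rfl

/-- The free models on the sides as a tower. -/
def faceTower : MTower C.C where
  M i e := (faceRep (S := S) hR T (sidesC M i e)).G
  up i e' e := faceIncl hR T fun _ => sidesC_up M i e' e
  square i e'' e := by rw [faceIncl_trans, faceIncl_trans]

end

/-- Carried families exist in towers of contractible models. -/
theorem MTower.exists_fam {E : Ext} {T : MTower E} :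
    ∀ n, (∀ i, i ≤ n → ∀ e, E.Ctr (T.M i e).obj) → Nonempty (T.Fam n)
  | 0, hT => by
    have h := fun e => (hT 0 le_rfl e).nonempty
    exact ⟨⟨fun i hi e => (Nat.le_zero.1 hi).symm ▸ (h e).some,
      fun i h => absurd h (Nat.not_lt_zero i)⟩⟩
  | n + 1, hT => by
    obtain ⟨φ⟩ := MTower.exists_fam n fun i hi => hT i (hi.trans n.le_succ)
    have hpar : ∀ e, E.Par (T.M (n + 1) e).obj
        (E.appCell (T.up n false e).hom n (φ.c n le_rfl false))
        (E.appCell (T.up n true e).hom n (φ.c n le_rfl true)) := by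
      obtain _ | L := n
      · exact fun _ => trivial
      · intro e e'
        rw [Ext.appCell, Ext.appCell, E.act_natural, E.act_natural, φ.nat L L.lt_succ_self,
          φ.nat L L.lt_succ_self]
        show (T.up L e' false ≫ T.up (L + 1) false e).hom.app _ _ =
          (T.up L e' true ≫ T.up (L + 1) true e).hom.app _ _
        rw [T.square]
    choose z hz0 hz1 using fun e => (hT (n + 1) le_rfl e).linked _ _ (hpar e)
    refine ⟨⟨fun i hi e => if h : i ≤ n then φ.c i h e
      else (show n + 1 = i by omega) ▸ z e, fun i h e' e => ?_⟩⟩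
    by_cases hi : i + 1 ≤ n
    · rw [dif_pos hi, dif_pos (by omega)]
      exact φ.nat i hi e' e
    · obtain rfl : i = n := by omega
      rw [dif_neg hi, dif_pos le_rfl]
      cases e'
      exacts [hz0 e, hz1 e]

end Vale.Agent.P259.Pi
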