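import Vale.Agent.P259.Pi.SideModels
import Vale.Agent.P259.Pi.SideMaps
import Vale.Agent.P259.Real.Approx

/-!
# P259, Pi: the maps of faces given by families, compatible with inclusions of faces
-/

namespace Vale.Agent.P259.Pi

open P259.Complex
open P259.Complex.Real (mapO)
open scoped Topology Classical

noncomputable section

variable {M : ℕ} {A B : Faces M}

theorem subHomeo_symm_incl (h : ∀ s, A.mem s → B.mem s) (T : Subdivision M) (p : A.space) :
    (B.subHomeo T).symm ⟨p.1, h _ p.2⟩ =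
      mapO (sdEmb (subIncl h T)).toOrderHom ((A.subHomeo T).symm p) := by
  refine (B.subHomeo T).injective (Subtype.ext ?_)
  rw [Homeomorph.apply_symm_apply, B.subHomeo_apply]
  refine Eq.trans ?_ (congrArg (subdivHomeo T) ?_ :
    subdivHomeo T (mapO (sdEmb (A.incl T)).toOrderHom ((A.subHomeo T).symm p)) = _)
  · rw [← A.subHomeo_apply, Homeomorph.apply_symm_apply]
  · refine Eq.trans ?_ (P259.Complex.Real.mapO_comp _ _ _).symm
    refine P259.Complex.Real.mapO_congr _ _ _ fun s _ => Subtype.ext (Finset.coe_injective ?_)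
    show ((sdEmb (A.incl T) s).1 : Set T.T) = ((sdEmb (B.incl T) (sdEmb (subIncl h T) s)).1 : Set T.T)
    rw [sdEmb_val, sdEmb_val, sdEmb_val, Set.image_image]
    rfl

/-- The map of more faces restricts to the map of fewer faces. -/
theorem realSub_incl {S Z : SimpSys} (h : ∀ s, A.mem s → B.mem s) {T : Subdivision M}
    (G : Fam (OCx.chains (B.Sub T)) S) (G' : Fam (OCx.chains (A.Sub T)) Z) (r : Z.Hom S)
    (hG : ∀ {j : ℕ} (v : (OCx.chains (A.Sub T)).Simp j),
      G.app ⟨subIncl h T ∘ v.1, (subIncl h T).strictMono.comp v.2⟩ = (G'.map r).app v)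
    (lab : T.T → ℚ) (hlB : StrictMono (lab ∘ B.incl T)) (hlA : StrictMono (lab ∘ A.incl T))
    (p : A.space) :
    Fam.realSub B G (lab ∘ B.incl T) hlB ⟨p.1, h _ p.2⟩ =
      r.space (Fam.realSub A G' (lab ∘ A.incl T) hlA p) := by
  show mapO _ ((B.subHomeo T).symm ⟨p.1, h _ p.2⟩) = mapO r.vert (mapO _ ((A.subHomeo T).symm p))
  rw [subHomeo_symm_incl h T p]
  have hψ : (G.psi (lab ∘ B.incl T) hlB (OCx.carries_chains (B.Sub T))).comp
      (sdEmb (subIncl h T)).toOrderHom =
      r.vert.comp (G'.psi (lab ∘ A.incl T) hlA (OCx.carries_chains (A.Sub T))) :=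
    Fam.psi_comp_sdEmb G (G'.map r) (subIncl h T) hG (lab ∘ B.incl T) hlB
  exact (P259.Complex.Real.mapO_comp _ _ _).trans ((congrArg
    (fun φ => mapO φ ((A.subHomeo T).symm p)) hψ).trans (P259.Complex.Real.mapO_comp _ _ _).symm)

end

end Vale.Agent.P259.Pi
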