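import Vale.Agent.P259.Pi.SideReal
import Vale.Agent.P259.Pi.InjectTop

/-!
# P259, Pi: every map of pairs comes from a cell with some sides
-/

namespace Vale.Agent.P259.Pi

open CategoryTheory Opposite
open P259.Complex
open scoped Topology unitInterval Classical

noncomputable section

variable {C : Coherator} {S : Simplices C.C} (J : Iota S.toSimpBase) {n : ℕ}

/-- A cell with sides from another model gives a map of pairs. -/
theorem theta_bdry {Z X : C.C.Gpd} (r : Z ⟶ X) {b : Bool → C.C.cells Z.obj n}
    {K : C.C.cells X.obj (n + 1)}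
    (hK : ∀ e, C.C.act X.obj (C.C.face e n) K = C.C.appCell r.hom n (b e))
    (w : C(rim (n + 1), (S.toSimpBase.sys Z).Space))
    (hw : ∀ e v, w ⟨hemi e n v, Ball.hemi_mem_rim e v⟩ = J.theta Z (b e) v) (v : rim (n + 1)) :
    J.theta X K v.1 = S.toSimpBase.real r (w v) := by
  obtain ⟨u, hu⟩ := v
  obtain ⟨e, x, rfl⟩ := Ball.exists_hemi hu
  rw [hw, ← ContinuousMap.comp_apply, J.theta_hemi, hK, J.theta_app]
  rfl

/-- **Surjectivity up to a change of sides**. -/
theorem exists_cell (hR : Spec.RepExists) (hZ' : Spec.RepCtrZig) (hW : Spec.RealWC)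
    (hF : Spec.SysFills) {Z X : C.C.Gpd} (r : Z ⟶ X)
    (w : C(rim (n + 1), (S.toSimpBase.sys Z).Space))
    (f : C(Ball (n + 1), (S.toSimpBase.sys X).Space))
    (hf : ∀ v : rim (n + 1), f v.1 = S.toSimpBase.real r (w v)) :
    ∃ (b : Bool → C.C.cells Z.obj n) (_ : C.C.Par Z.obj (b false) (b true))
      (K : C.C.cells X.obj (n + 1))
      (_ : ∀ e, C.C.act X.obj (C.C.face e n) K = C.C.appCell r.hom n (b e))
      (w' : C(rim (n + 1), (S.toSimpBase.sys Z).Space))
      (_ : ∀ e v, w' ⟨hemi e n v, Ball.hemi_mem_rim e v⟩ = J.theta Z (b e) v)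
      (hK : ∀ v : rim (n + 1), J.theta X K v.1 = S.toSimpBase.real r (w' v)),
      (PMap.mk (J.theta X K) w' hK).Hom (PMap.mk f w hf) := by
  let B := S.toSimpBase
  let M := n + 1
  obtain ⟨p, hp⟩ := PMap.exists_pull_hom (dlt_pairEquiv M) (PMap.mk f w hf)
  obtain ⟨N, G, G', lab, hl, hl', hG, -, hpG⟩ :=
    exists_psi_approx (Faces.proper M) (B.sysMap r) (SimpBase.sysMap_isNat B r) p.f p.w p.comm
  let T := Subdivision.iter M N
  let A := fun i e => sidesC M i e
  have hctr : ∀ i e, C.C.Ctr (faceRep (S := S) hR T (A i e)).G.obj := fun i e =>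
    ctr_sides hR hZ' S M N i e
  let MT := faceTower (S := S) hR T
  have hMT : ∀ i e, WC (B.sys (MT.M i e)).Space := fun i e => hW _ (hF C S _ (hctr i e))
  obtain ⟨c⟩ := MTower.exists_fam (T := MT) (n + 1) fun i _ e => hctr i e
  let GA : Fam (OCx.chains ((A (n + 1) false).Sub T)) (B.sys X) :=
    { app := fun v => G.app ⟨(A (n + 1) false).incl T ∘ v.1,
        ((A (n + 1) false).incl T).strictMono.comp v.2⟩
      nat := fun _ δ hδ => G.nat _ δ hδ }
  let gh : MT.M (n + 1) false ⟶ X := faceHom hR GA
  have hprop : ∀ e s, (A n e).mem s → (Faces.proper M).mem s := fun e s h => by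
    rw [show A n e = sides M n e from sidesC_lt n.lt_succ_self e] at h
    exact sides_proper n.lt_succ_self e h
  let qh : ∀ e, MT.M n e ⟶ Z := fun e => faceHom hR (restrSub (hprop e) G')
  have hcomm : ∀ e, MT.up n e false ≫ gh = qh e ≫ r := fun e => by
    show faceIncl hR T _ ≫ faceHom hR GA = faceHom hR (restrSub (hprop e) G') ≫ r
    rw [faceIncl_comp, faceHom_spec]
    refine faceHom_ext hR fun k v => ?_
    refine (faceHom_app hR _ v).trans (Eq.trans ?_ ((congrArg (fun z => z ≫ r)
      (faceHom_app hR (restrSub (hprop e) G') v)).symm.trans (Category.assoc _ _ _)))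
    exact hG ⟨subIncl (hprop e) T ∘ v.1, (subIncl (hprop e) T).strictMono.comp v.2⟩
  have hcompat : ∀ i (h : i + 1 = n) (e' : Bool),
      MT.up i e' false ≫ eqToHom (congrArg (fun k => MT.M k false) h) ≫ qh false =
        MT.up i e' true ≫ eqToHom (congrArg (fun k => MT.M k true) h) ≫ qh true := by
    rintro i rfl e'
    rw [eqToHom_refl, eqToHom_refl, Category.id_comp, Category.id_comp]
    show faceIncl hR T _ ≫ faceHom hR _ = faceIncl hR T _ ≫ faceHom hR _
    rw [faceIncl_comp, faceIncl_comp, faceHom_spec, faceHom_spec]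
    rfl
  let b : Bool → C.C.cells Z.obj n := fun e => C.C.appCell (qh e).hom n (c.c n n.le_succ e)
  have hb : C.C.Par Z.obj (b false) (b true) := by
    obtain _ | L := n
    · trivial
    · intro e''
      have h0 : ∀ e, C.C.act Z.obj (C.C.face e'' L) (b e) =
          (MT.up L e'' e ≫ qh e).hom.app _ (c.c L (L.le_succ.trans (L + 1).le_succ) e'') := fun e =>
        (C.C.act_natural (qh e).hom (C.C.face e'' L) _).trans
          (congrArg (fun z => (qh e).hom.app _ z) (c.nat L (L.lt_succ_self.trans (L + 1).lt_succ_self) e'' e))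
      have h1 := hcompat L rfl e''
      rw [eqToHom_refl, eqToHom_refl, Category.id_comp, Category.id_comp] at h1
      rw [h0, h0, h1]
  let K : C.C.cells X.obj (n + 1) := C.C.appCell gh.hom (n + 1) (c.c (n + 1) le_rfl false)
  have hKs : ∀ e, C.C.act X.obj (C.C.face e n) K = C.C.appCell r.hom n (b e) := fun e =>
    ((C.C.act_natural gh.hom (C.C.face e n) _).trans
      (congrArg (fun z => gh.hom.app _ z) (c.nat n n.lt_succ_self e false))).trans
      (congrArg (fun k : MT.M n e ⟶ X => k.hom.app _ (c.c n n.le_succ e)) (hcomm e))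
  obtain ⟨w', hw'⟩ := J.exists_bdry Z b hb
  have hKw := theta_bdry J r hKs w' hw'
  refine ⟨b, hb, K, hKs, w', hw', hKw, ?_⟩
  -- the universal maps of the faces
  let U : ∀ i e, C((A i e).space, (B.sys (MT.M i e)).Space) := fun i e =>
    Fam.realSub (A i e) (faceRep (S := S) hR T (A i e)).fam (lab ∘ (A i e).incl T)
      (hl.comp ((A i e).incl T).strictMono)
  let pnt : ∀ i (_ : Bool), C(Ball i, Simplex M) := fun i e =>
    if h : i < M then sigma h e
    else if h' : i = M then h' ▸ dlt M
    else ContinuousMap.const _ (dlt M ⟨0, by simp⟩)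
  have pnt_lt : ∀ i (h : i < M) e, pnt i e = sigma h e := fun i h e => dif_pos h
  have pnt_top : ∀ e, pnt M e = dlt M := fun e => (dif_neg (lt_irrefl M)).trans (dif_pos rfl)
  have hmem : ∀ i e v, (A i e).mem (pnt i e v).w.support := by
    intro i e v
    by_cases h : i < M
    · rw [show A i e = sides M i e from sidesC_lt h e, pnt_lt i h e]
      exact sigma_mem h e v
    · rw [show A i e = allFaces M from sidesC_ge (not_lt.1 h) e]
      trivial
  let F2 : (Tower.ofModels B MT hMT).Fam (n + 1) :=
    { f := fun i e => (U i e).comp ⟨fun v => ⟨pnt i e v, hmem i e v⟩, (pnt i e).continuous.subtype_mk _⟩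
      nat := fun i h e' e => ContinuousMap.ext fun v => by
        have hpt : pnt (i + 1) e (hemi e' i v) = pnt i e' v := by
          rw [pnt_lt i h e']
          rcases (Nat.succ_le_of_lt h).lt_or_eq with h1 | h1
          · rw [pnt_lt (i + 1) h1 e]
            exact sigma_hemi h1 e e' v
          · obtain rfl : i = n := Nat.succ_injective h1
            rw [pnt_top e]
            exact dlt_hemi i e' v
        show U (i + 1) e ⟨pnt (i + 1) e (hemi e' i v), hmem _ _ _⟩ =
          B.real (MT.up i e' e) (U i e' ⟨pnt i e' v, hmem i e' v⟩)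
        refine (congrArg (U (i + 1) e) (Subtype.ext hpt :
          (⟨_, hmem _ _ _⟩ : (A (i + 1) e).space) =
            ⟨pnt i e' v, sidesC_up M i e' e (hmem i e' v)⟩)).trans ?_
        exact realSub_incl (fun _ => sidesC_up M i e' e) _ _ (B.sysMap (MT.up i e' e))
          (fun u => (faceHom_app hR (restrSub (fun _ => sidesC_up M i e' e)
            (faceRep (S := S) hR T (A (i + 1) e)).fam) u).symm)
          lab _ _ ⟨pnt i e' v, hmem i e' v⟩ }
  have hq : ∀ i (h : i + 1 = n) (e' : Bool) (x : (B.sys (MT.M i e')).Space),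
      B.real (qh false) (h ▸ B.real (MT.up i e' false) x) =
        B.real (qh true) (h ▸ B.real (MT.up i e' true) x) := by
    rintro i rfl e' x
    show B.real _ (B.real _ x) = B.real _ (B.real _ x)
    have h1 := hcompat i rfl e'
    rw [eqToHom_refl, eqToHom_refl, Category.id_comp, Category.id_comp] at h1
    rw [real_comp_apply, real_comp_apply, h1]
  have hhom : (PMap.mk (J.theta X K) w' hKw).Hom
      ((PMap.mk (G.real lab hl) (Fam.realSub (Faces.proper M) G' (lab ∘ (Faces.proper M).incl T) hl')
        (G.real_comm (Faces.proper M) G' (B.sysMap r) hG lab hl hl')).pull (dlt M)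
          (dlt_pairEquiv M).1) := by
    refine Tower.Fam.pmap_hom (Tower.Fam.theta J hMT c) F2 (B.real gh)
      (fun e => B.real (qh e)) ?_ hq _ _ (fun v => ?_) (fun v => ?_) (fun e v => ?_) (fun e v => ?_)
    · intro e x
      exact (real_comp_apply B (qh e) r x).trans ((congrArg (fun z => B.real z x) (hcomm e).symm).trans
        (real_comp_apply B (MT.up n e false) gh x).symm)
    · rw [Tower.Fam.theta_f J hMT c le_rfl]
      exact DFunLike.congr_fun (J.theta_app gh (c.c (n + 1) le_rfl false)) v
    · show G.real lab hl (dlt M v) = B.real gh (U (n + 1) false ⟨pnt (n + 1) false v, hmem _ _ _⟩)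
      have hd : dlt M v = pnt (n + 1) false v := (DFunLike.congr_fun (pnt_top false) v).symm
      rw [hd]
      exact G.real_comm (A (n + 1) false) (faceRep (S := S) hR T (A (n + 1) false)).fam
        (B.sysMap gh) (fun u => (faceHom_app hR GA u).symm) lab hl
        (hl.comp ((A (n + 1) false).incl T).strictMono) ⟨pnt (n + 1) false v, hmem _ _ _⟩
    · rw [hw', Tower.Fam.theta_f J hMT c n.le_succ]
      exact DFunLike.congr_fun (J.theta_app (qh e) (c.c n n.le_succ e)) v
    · have hd : dlt M (hemi e n v) = pnt n e v := by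
        rw [pnt_lt n n.lt_succ_self e]
        exact dlt_hemi n e v
      show Fam.realSub (Faces.proper M) G' (lab ∘ (Faces.proper M).incl T) hl'
          ⟨dlt M (hemi e n v), _⟩ = B.real (qh e) (U n e ⟨pnt n e v, hmem _ _ _⟩)
      refine (congrArg (Fam.realSub (Faces.proper M) G' (lab ∘ (Faces.proper M).incl T) hl')
        (Subtype.ext hd : (⟨_, _⟩ : (Faces.proper M).space) =
          ⟨pnt n e v, hprop e _ (hmem n e v)⟩)).trans ?_
      exact realSub_incl (hprop e) G' _ (B.sysMap (qh e))
        (fun u => (faceHom_app hR (restrSub (hprop e) G') u).symm) lab hl' _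
        ⟨pnt n e v, hmem n e v⟩
  exact hhom.trans ((PMap.Hom.pull hpG.symm (dlt M) (dlt_pairEquiv M).1).trans hp)

end

end Vale.Agent.P259.Pi
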