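import Vale.Agent.P259.Model.Linked
import Vale.Agent.P259.Glob.Table

/-!
# P259, Pi: whiskering tables and whiskering operations
-/

namespace Vale.Agent.P259.Pi

open CategoryTheory Opposite

noncomputable section

/-- The table `(j+1, i, j+1)` glued along dimension `j`. -/
def wt (j i : ℕ) (h : j < i) : Table where
  len := 2
  top p := if p.1 = 1 then i else j + 1
  bot _ := j
  lt_left p := by split_ifs <;> omega
  lt_right p := by split_ifs <;> omega

/-- A dependent function on three positions. -/
def fin3 {P : Fin 3 → Sort*} (a : P 0) (b : P 1) (c : P 2) : ∀ p, P p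
  | ⟨0, _⟩ => a
  | ⟨1, _⟩ => b
  | ⟨2, _⟩ => c

variable {E : Ext} {j i : ℕ} (h : j < i)

/-- The first position. -/
def i0 : E.M (disc (j + 1)) (wt j i h) := E.i.map (incl (wt j i h) (0 : Fin 3))

/-- The middle position. -/
def i1 : E.M (disc i) (wt j i h) := E.i.map (incl (wt j i h) (1 : Fin 3))

/-- The last position. -/
def i2 : E.M (disc (j + 1)) (wt j i h) := E.i.map (incl (wt j i h) (2 : Fin 3))

/-- The side `e` of dimension `j` of a higher disc. -/
abbrev sd (E : Ext) (e : Bool) {j i : ℕ} (h : j < i) : E.M (disc j) (disc i) :=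
  E.i.map (side e h)

theorem sd_sd (e e' : Bool) {k j i : ℕ} (h : k < j) (h' : j < i) :
    sd E e h ≫ sd E e' h' = sd E e (h.trans h') := by
  rw [← E.i.map_comp, Glob.side_comp]

theorem sd_face (e e' : Bool) {k i : ℕ} (h : k < i) :
    sd E e h ≫ E.face e' i = sd E e (h.trans i.lt_succ_self) :=
  sd_sd e e' h i.lt_succ_self

theorem glue_left : E.face true j ≫ i0 h = sd E false h ≫ i1 (E := E) h := by
  exact (E.i.map_comp _ _).symm.trans
    ((congrArg E.i.map (side_incl_glue (wt j i h) (0 : Fin 2))).trans (E.i.map_comp _ _))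

theorem glue_right : sd E true h ≫ i1 h = E.face false j ≫ i2 (E := E) h := by
  exact (E.i.map_comp _ _).symm.trans
    ((congrArg E.i.map (side_incl_glue (wt j i h) (1 : Fin 2))).trans (E.i.map_comp _ _))

theorem exists_shift (e : Bool) : ∃ g : E.M (wt j i h) (wt j (i + 1) (h.trans i.lt_succ_self)),
    i0 h ≫ g = i0 _ ∧ i1 h ≫ g = E.face e i ≫ i1 _ ∧ i2 h ≫ g = i2 _ := by
  let h' := h.trans i.lt_succ_self
  have c0 : E.i.map (side true ((wt j i h).lt_left (0 : Fin 2))) ≫ i0 h' =
      E.i.map (side false ((wt j i h).lt_right (0 : Fin 2))) ≫ E.face e i ≫ i1 h' := by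
    show E.face true j ≫ i0 h' = sd E false h ≫ E.face e i ≫ i1 h'
    rw [← Category.assoc, sd_face, glue_left]
  have c1 : E.i.map (side true ((wt j i h).lt_left (1 : Fin 2))) ≫ E.face e i ≫ i1 h' =
      E.i.map (side false ((wt j i h).lt_right (1 : Fin 2))) ≫ i2 h' := by
    show sd E true h ≫ E.face e i ≫ i1 h' = E.face false j ≫ i2 h'
    rw [← Category.assoc, sd_face, glue_right]
  obtain ⟨g, hg, -⟩ := E.sums (wt j i h) _
    (fin3 (P := fun p => E.M (disc ((wt j i h).top p)) (wt j (i + 1) h'))
      (i0 h') (E.face e i ≫ i1 h') (i2 h'))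
    (fun p => by
      obtain ⟨q, hq⟩ := p
      rcases q with _ | _ | q
      · exact c0
      · exact c1
      · exact absurd hq (by show ¬ q + 2 < 2; omega))
  exact ⟨g, hg (0 : Fin 3), hg (1 : Fin 3), hg (2 : Fin 3)⟩

/-- The side `e` of the middle position. -/
def shift (e : Bool) : E.M (wt j i h) (wt j (i + 1) (h.trans i.lt_succ_self)) :=
  (exists_shift h e).choose

theorem i0_shift (e : Bool) : i0 h ≫ shift (E := E) h e = i0 _ := (exists_shift h e).choose_spec.1

theorem i1_shift (e : Bool) : i1 h ≫ shift (E := E) h e = E.face e i ≫ i1 _ :=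
  (exists_shift h e).choose_spec.2.1

theorem i2_shift (e : Bool) : i2 h ≫ shift (E := E) h e = i2 _ := (exists_shift h e).choose_spec.2.2

/-- Maps out of a whiskering table agree if they agree on the three positions. -/
theorem wt_hom_ext {T : Table} {f g : E.M (wt j i h) T} (h0 : i0 h ≫ f = i0 h ≫ g)
    (h1 : i1 h ≫ f = i1 h ≫ g) (h2 : i2 h ≫ f = i2 h ≫ g) : f = g := by
  refine (E.sums (wt j i h) (E.i.obj T) (fun p => E.i.map (incl _ p) ≫ f) fun p => ?_).unique
    (fun _ => rfl) fun p => ?_
  · rw [← Category.assoc, ← Category.assoc, ← E.i.map_comp, ← E.i.map_comp, side_incl_glue]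
  · obtain ⟨q, hq⟩ := p
    rcases q with _ | _ | _ | q
    · exact h0.symm
    · exact h1.symm
    · exact h2.symm
    · exact absurd hq (by show ¬ q + 3 < 2 + 1; omega)

theorem shift_shift (e e' e'' : Bool) :
    shift (E := E) h e ≫ shift (h.trans i.lt_succ_self) e' =
      shift h e ≫ shift (h.trans i.lt_succ_self) e'' := by
  refine wt_hom_ext h ?_ ?_ ?_
  · simp only [← Category.assoc, i0_shift]
  · simp only [← Category.assoc, i1_shift]
    rw [Category.assoc, i1_shift, Category.assoc, i1_shift, ← Category.assoc, E.face_face e e' e'',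
      Category.assoc]
  · simp only [← Category.assoc, i2_shift]

/-- The outer sides of dimension `j`. -/
def outer (e : Bool) : E.M (disc j) (wt j i h) :=
  match e with
  | false => E.face false j ≫ i0 h
  | true => E.face true j ≫ i2 h

theorem outer_shift (e e' : Bool) : outer h e' ≫ shift h e = outer (E := E) _ e' := by
  cases e'
  · simp only [outer, Category.assoc, i0_shift]
  · simp only [outer, Category.assoc, i2_shift]

/-- The operations `w i` from discs to whiskering tables with the expected sides. -/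
structure WOp (E : Ext) (j : ℕ) : Type where
  w : ∀ i (h : j < i), E.M (disc i) (wt j i h)
  base : ∀ e, E.face e j ≫ w (j + 1) j.lt_succ_self = outer _ e
  step : ∀ i (h : j < i) e, E.face e i ≫ w (i + 1) (h.trans i.lt_succ_self) = w i h ≫ shift h e

theorem face_outer_eq {L : ℕ} (e : Bool) (h : L + 1 < i) :
    E.face e L ≫ outer h false = E.face e L ≫ outer (E := E) h true := by
  simp only [outer, ← Category.assoc, sd_face]
  have l := congrArg (fun f => sd E e L.lt_succ_self ≫ f) (glue_left (E := E) h)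
  have r := congrArg (fun f => sd E e L.lt_succ_self ≫ f) (glue_right (E := E) h)
  simp only [← Category.assoc, sd_sd] at l r
  exact l.trans (r.trans (by rfl))

theorem exists_wop (hE : E.Contractible) (j : ℕ) : Nonempty (WOp E j) := by
  have hpar : E.Parallel (outer (E := E) j.lt_succ_self false) (outer j.lt_succ_self true) := by
    cases j with
    | zero => trivial
    | succ L => exact fun e => face_outer_eq e _
  obtain ⟨w0, hw0⟩ := hE _ _ hpar
  have hb : ∀ e, E.face e j ≫ w0 = outer _ e := fun e => by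
    cases e
    exacts [hw0.1, hw0.2]
  let P : ∀ i (h : j < i), E.M (disc i) (wt j i h) → Prop := fun i h f =>
    E.Parallel (f ≫ shift h false) (f ≫ shift h true)
  have h1 : P (j + 1) j.lt_succ_self w0 := fun e => by
    show E.face e j ≫ w0 ≫ shift _ false = E.face e j ≫ w0 ≫ shift _ true
    rw [← Category.assoc, ← Category.assoc, hb, outer_shift, outer_shift]
  have hn : ∀ i (h : j < i) (f : E.M (disc i) (wt j i h)) (_ : P i h f),
      ∃ g : E.M (disc (i + 1)) (wt j (i + 1) (h.trans i.lt_succ_self)),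
        (∀ e, E.face e i ≫ g = f ≫ shift h e) ∧ P (i + 1) _ g := fun i h f hf => by
    obtain ⟨g, hg0, hg1⟩ := hE _ _ hf
    have hg : ∀ e, E.face e i ≫ g = f ≫ shift h e := fun e => by
      cases e
      exacts [hg0, hg1]
    refine ⟨g, hg, fun e => ?_⟩
    show E.face e i ≫ g ≫ shift _ false = E.face e i ≫ g ≫ shift _ true
    rw [← Category.assoc, ← Category.assoc, hg, Category.assoc, Category.assoc,
      shift_shift h e false true]
  choose nx hnx hnxP using hn
  let w : ∀ d i (h : j < i), i = j + 1 + d → {f : E.M (disc i) (wt j i h) // P i h f} := fun d =>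
    Nat.rec (motive := fun d => ∀ i (h : j < i), i = j + 1 + d → {f // P i h f})
      (fun i h hi => by subst hi; exact ⟨w0, h1⟩)
      (fun d ih i h hi => by
        subst hi
        exact ⟨nx (j + 1 + d) (by omega) _ (ih (j + 1 + d) (by omega) rfl).2, hnxP _ _ _ _⟩) d
  have wc : ∀ d d' i (h : j < i) (hi : i = j + 1 + d) (hi' : i = j + 1 + d'),
      w d i h hi = w d' i h hi' := fun d d' i h hi hi' => by
    obtain rfl : d = d' := by omega
    rfl
  refine ⟨⟨fun i h => (w (i - j - 1) i h (by omega)).1, fun e => ?_, fun i h e => ?_⟩⟩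
  · show E.face e j ≫ (w _ (j + 1) _ _).1 = _
    rw [wc _ 0 (j + 1) _ _ rfl]
    exact hb e
  · obtain ⟨d, rfl⟩ : ∃ d, i = j + 1 + d := ⟨i - j - 1, by omega⟩
    show E.face e (j + 1 + d) ≫ (w _ (j + 1 + d + 1) _ _).1 = (w _ (j + 1 + d) _ _).1 ≫ _
    rw [wc _ (d + 1) (j + 1 + d + 1) _ _ rfl, wc _ d (j + 1 + d) _ _ rfl]
    exact hnx _ _ _ _ e

end

end Vale.Agent.P259.Pi
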